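import Vale.Agent.P168.Perturb.Defs
import Vale.Agent.P168.Tree.Deriv
import Vale.Agent.P168.Tree.Var

/-!
# P168: the energies of the perturbing terms concentrate on average over their parameters
-/

open Real Finset MeasureTheory

namespace Vale.Agent.P168

variable {L n N : ℕ} {Z : Type} [Fintype Z] [DecidableEq Z] [Nonempty Z]

/-! ### Expectations over replicas of one shape -/

omit [Nonempty Z] in
theorem E_le_E (S : Shape L n) (G : Grid L) (H : (Fin L → Z) → ℝ) {φ ψ : (Fin n → Fin L → Z) → ℝ}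
    (h : ∀ ξ, φ ξ ≤ ψ ξ) : S.E G H φ ≤ S.E G H ψ := by
  unfold Shape.E
  refine div_le_div_of_nonneg_right (sum_le_sum fun ξ _ => ?_) (Nat.cast_nonneg _)
  exact mul_le_mul_of_nonneg_left (h ξ) (exp_pos _).le

omit [Nonempty Z] in
theorem E_add_fun (S : Shape L n) (G : Grid L) (H : (Fin L → Z) → ℝ) (φ ψ : (Fin n → Fin L → Z) → ℝ) :
    S.E G H (fun ξ => φ ξ + ψ ξ) = S.E G H φ + S.E G H ψ := by
  simp only [Shape.E, mul_add, sum_add_distrib, add_div]

omit [Nonempty Z] in
theorem E_const_mul (S : Shape L n) (G : Grid L) (H : (Fin L → Z) → ℝ) (c : ℝ)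
    (φ : (Fin n → Fin L → Z) → ℝ) : S.E G H (fun ξ => c * φ ξ) = c * S.E G H φ := by
  simp only [Shape.E, mul_left_comm _ c, ← mul_sum, mul_div_assoc]

theorem E_const (S : Shape L n) (G : Grid L) (H : (Fin L → Z) → ℝ) (c : ℝ) :
    S.E G H (fun _ => c) = c := by
  have := E_const_mul S G H c fun _ => 1
  simpa [E_mass] using this

theorem abs_E_le (S : Shape L n) (G : Grid L) (H : (Fin L → Z) → ℝ) {φ : (Fin n → Fin L → Z) → ℝ}
    {A : ℝ} (h : ∀ ξ, |φ ξ| ≤ A) : |S.E G H φ| ≤ A := by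
  rw [abs_le]
  constructor
  · simpa [E_const] using E_le_E S G H (φ := fun _ => -A) fun ξ => (abs_le.1 (h ξ)).1
  · simpa [E_const] using E_le_E S G H (ψ := fun _ => A) fun ξ => (abs_le.1 (h ξ)).2

theorem continuous_E (S : Shape L n) (G : Grid L) {H : ℝ → (Fin L → Z) → ℝ}
    {Y : ℝ → (Fin L → Z) → ℝ} (hH : ∀ x ξ, HasDerivAt (fun v => H v ξ) (Y x ξ) x)
    {φ : ℝ → (Fin n → Fin L → Z) → ℝ} (hφ : ∀ ξ, Continuous fun x => φ x ξ) :
    Continuous fun x => S.E G (H x) (φ x) := by
  have hv : ∀ t q, Continuous fun x => vAt G (H x) t q := fun t q =>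
    continuous_iff_continuousAt.2 fun x => (hasDerivAt_vAt G (hH x) t q).continuousAt
  have hd : ∀ ξ : Fin n → Fin L → Z, Continuous fun x => S.dens G (H x) ξ := fun ξ =>
    continuous_exp.comp <| continuous_finsetSum _ fun i _ => continuous_finsetSum _ fun s _ =>
      (((hv s (ξ i)).sub (hv (s - 1) (ξ i))).const_mul _).div_const _
  exact (continuous_finsetSum _ fun ξ _ => (hd ξ).mul (hφ ξ)).div_const _

/-! ### The derivatives of a root value with linear potential -/

/-- The derivative of the mean of the slope `e` is `s` times its slope variance. -/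
theorem hasDerivAt_E_slope (G : Grid L) {H : ℝ → (Fin L → Z) → ℝ} {e : (Fin L → Z) → ℝ} {s : ℝ}
    (hH : ∀ x ξ, HasDerivAt (fun v => H v ξ) (s * e ξ) x) (x : ℝ) :
    HasDerivAt (fun v => (Shape.one L).E G (H v) fun ξ => e (ξ 0))
      (s * ((Shape.one L).E G (H x) (fun ξ => e (ξ 0) ^ 2) - ∑ t : Fin L, (Shape.one L).attW G 0 t *
        ((Shape.one L).ext 0 t t.2).E G (H x) fun ξ => e (ξ 0) * e (ξ 1))) x := by
  refine (derivStmt L 1 Z G H (fun ξ => s * e ξ) (Shape.one L) (fun _ ξ => e (ξ 0)) (fun _ => 0) x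
    (hH x) fun ξ => hasDerivAt_const _ _).congr_deriv ?_
  rw [Fin.sum_univ_one, E_const, zero_add, mul_sub, mul_sum]
  congr 1
  · rw [← E_const_mul]
    exact congrArg _ (funext fun ξ => by ring)
  · refine sum_congr rfl fun t _ => ?_
    rw [mul_left_comm s, ← E_const_mul _ G _ s]
    congr 2
    funext ξ
    simp only [Fin.castSucc_zero, show (Fin.last 1 : Fin 2) = 1 from rfl]
    ring

theorem variance_nonneg (G : Grid L) (H : (Fin L → Z) → ℝ) (e : (Fin L → Z) → ℝ) (c : ℝ) :
    (Shape.one L).E G H (fun ξ => (e (ξ 0) - c) ^ 2) =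
      (Shape.one L).E G H (fun ξ => e (ξ 0) ^ 2)
        - 2 * c * (Shape.one L).E G H (fun ξ => e (ξ 0)) + c ^ 2 := by
  have h : (fun ξ : Fin 1 → Fin L → Z => (e (ξ 0) - c) ^ 2) =
      fun ξ => e (ξ 0) ^ 2 + ((-(2 * c)) * e (ξ 0) + c ^ 2) := funext fun ξ => by ring
  rw [h, E_add_fun, E_add_fun, E_const_mul, E_const]
  ring

/-- The mean deviation from any constant, by the slope variance. -/
theorem E_abs_sub_le (G : Grid L) (hL : 0 < L) (H : (Fin L → Z) → ℝ) (e : (Fin L → Z) → ℝ) (c l : ℝ)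
    (hl : 0 < l) :
    (Shape.one L).E G H (fun ξ => |e (ξ 0) - c|) ≤
      ((Shape.one L).E G H (fun ξ => e (ξ 0) ^ 2) - ∑ t : Fin L, (Shape.one L).attW G 0 t *
        ((Shape.one L).ext 0 t t.2).E G H fun ξ => e (ξ 0) * e (ξ 1)) / (2 * l * G.m 1) + l / 2
        + |(Shape.one L).E G H (fun ξ => e (ξ 0)) - c| := by
  set M := (Shape.one L).E G H fun ξ => e (ξ 0)
  have hpt : ∀ ξ : Fin 1 → Fin L → Z,
      |e (ξ 0) - c| ≤ (1 / (2 * l)) * (e (ξ 0) - M) ^ 2 + (l / 2 + |M - c|) := fun ξ => by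
    have h1 := abs_sub_le (e (ξ 0)) M c
    have h2 : |e (ξ 0) - M| ≤ (1 / (2 * l)) * (e (ξ 0) - M) ^ 2 + l / 2 := by
      rw [← sq_abs (e (ξ 0) - M)]
      have := sq_nonneg (|e (ξ 0) - M| - l)
      field_simp
      nlinarith
    linarith
  refine (E_le_E _ G H hpt).trans ?_
  rw [E_add_fun, E_const_mul, E_const, variance_nonneg]
  have hm := G.m_pos 1 le_rfl hL
  have hv := varStmt L Z G H e hL
  rw [← le_div_iff₀' hm] at hv
  have hkey := mul_le_mul_of_nonneg_left hv (show 0 ≤ 1 / (2 * l) by positivity)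
  rw [show ∀ A : ℝ, 1 / (2 * l) * (A / G.m 1) = A / (2 * l * G.m 1) from fun A => by field_simp] at hkey
  calc _ = 1 / (2 * l) * ((Shape.one L).E G H (fun ξ => e (ξ 0) ^ 2) - M ^ 2) + (l / 2 + |M - c|) := by
        ring
    _ ≤ _ := by linarith

theorem slope_variance_nonneg (G : Grid L) (hL : 0 < L) (H : (Fin L → Z) → ℝ) (e : (Fin L → Z) → ℝ) :
    0 ≤ (Shape.one L).E G H (fun ξ => e (ξ 0) ^ 2) - ∑ t : Fin L, (Shape.one L).attW G 0 t *
        ((Shape.one L).ext 0 t t.2).E G H fun ξ => e (ξ 0) * e (ξ 1) := by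
  refine le_trans ?_ (varStmt L Z G H e hL)
  refine mul_nonneg (G.m_pos 1 le_rfl hL).le ?_
  have h := E_le_E (Shape.one L) G H
    (φ := fun _ => 0) fun ξ => sq_nonneg (e (ξ 0) - (Shape.one L).E G H fun ξ => e (ξ 0))
  rw [E_const, variance_nonneg] at h
  linarith

/-! ### One term -/

@[simp] theorem abs_spin (s : Bool) : |spin s| = 1 := by cases s <;> simp [spin]

theorem abs_chi (τ : Kind L) (lab : Fin L → τ.Lab) (j : Fin (τ.n + 1)) : |τ.chi lab j| = 1 := by
  simp only [Kind.chi, abs_prod]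
  exact prod_eq_one fun a _ => prod_eq_one fun c _ => by split_ifs <;> simp

theorem abs_field_le (τ : Kind L) (root : τ.Root N) (lab : Fin L → τ.Lab) (σ : Fin N → Bool) :
    |τ.field root lab σ| ≤ τ.n := by
  rw [Kind.field, abs_mul, abs_spin, one_mul]
  refine (abs_sum_le_sum_abs _ _).trans (le_of_eq ?_)
  simp [abs_mul, abs_chi]

theorem half_le_one_add_field {τ : Kind L} (hu : |τ.u| * τ.n ≤ 1 / 2) (root : τ.Root N)
    (lab : Fin L → τ.Lab) (σ : Fin N → Bool) : 1 / 2 ≤ 1 + τ.u * τ.field root lab σ := by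
  have h : |τ.u * τ.field root lab σ| ≤ 1 / 2 := by
    rw [abs_mul]
    exact (mul_le_mul_of_nonneg_left (abs_field_le τ root lab σ) (abs_nonneg _)).trans hu
  linarith [(abs_le.1 h).1]

theorem abs_energy_le {τ : Kind L} (hu : |τ.u| * τ.n ≤ 1 / 2) (root : τ.Root N)
    (lab : Fin L → τ.Lab) (σ : Fin N → Bool) : |τ.energy root lab σ| ≤ 2 := by
  have h := half_le_one_add_field hu root lab σ
  rw [Kind.energy, abs_div, abs_of_pos (show 0 < 1 + τ.u * τ.field root lab σ by linarith),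
    div_le_iff₀ (by linarith)]
  simp only [abs_mul, abs_prod, abs_spin, abs_chi, prod_const_one, mul_one]
  linarith

theorem hasDerivAt_term_update {P : ℕ} (τ : Fin P → Kind L) (t : Fin P → ℝ) (p q : Fin P)
    (root : (τ q).Root N) (lab : Fin L → (τ q).Lab) (σ : Fin N → Bool) (x : ℝ) :
    HasDerivAt (fun v => (τ q).term (Function.update t p v q) root lab σ)
      (if q = p then (τ q).energy root lab σ else 0) x := by
  by_cases hqp : q = p
  · subst hqp
    simp only [Kind.term, Function.update_self, if_true]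
    exact (((hasDerivAt_id x).mul_const _).const_add _).congr_deriv (one_mul _)
  · simp only [Kind.term, Function.update_of_ne hqp, if_neg hqp]
    exact hasDerivAt_const _ _

/-! ### The statement -/

/-- Concentration of the slopes for a finite law. -/
theorem slope_concentration_finite {Ω : Type} [Fintype Ω] [MeasurableSpace Ω] [MeasurableSingletonClass Ω]
    (w : Ω → ℝ) (h0 : ∀ o, 0 ≤ w o) (h1 : ∑ o, w o = 1) (f f1 : Ω → ℝ → ℝ) {b h A D : ℝ}
    (hb : 0 ≤ b) (hh : 0 < h) (hd : ∀ o x, HasDerivAt (f o) (f1 o x) x) (hmono : ∀ o, Monotone (f1 o))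
    (hbd : ∀ o x, |f1 o x| ≤ A)
    (hD : ∀ x ∈ Set.Icc (-h) (b + h), ∑ o, w o * |f o x - ∑ o', w o' * f o' x| ≤ D) :
    ∫ x in (0 : ℝ)..b, ∑ o, w o * |f1 o x - ∑ o', w o' * f1 o' x| ≤ 3 * b * D / h + 4 * A * h := by
  set μ : Measure Ω := ∑ o, ENNReal.ofReal (w o) • Measure.dirac o with hμ
  have : IsProbabilityMeasure μ :=
    ⟨by simp [hμ, Measure.finsetSum_apply, ← ENNReal.ofReal_sum_of_nonneg fun o _ => h0 o, h1]⟩
  have hint : ∀ g : Ω → ℝ, ∫ o, g o ∂μ = ∑ o, w o * g o := fun g => by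
    rw [integral_finsetSum_measure fun o _ =>
      (integrable_dirac (by simp)).smul_measure ENNReal.ofReal_ne_top]
    refine sum_congr rfl fun o _ => ?_
    rw [integral_smul_measure, integral_dirac, ENNReal.toReal_ofReal (h0 o), smul_eq_mul]
  have := slope_concentration μ f f1 (L := A) (D := D) hb hh hd hmono hbd
    (fun _ => Integrable.of_finite) (fun _ => Measurable.of_discrete)
    (fun x hx => by simpa only [hint] using hD x (by simpa using hx))
  simpa only [hint, sub_zero] using this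

theorem energyStmt : EnergyStmt := by
  intro L G N _ B P τ s t p w h D hw hh hL hs hu hD
  classical
  let B₀ := B.perturb τ t s
  let e : B₀.Om → (Fin L → B₀.Z) → ℝ := fun o ξ => B.kindEnergy τ t s p o ξ
  let H : B₀.Om → ℝ → (Fin L → B₀.Z) → ℝ := fun o x =>
    (B.perturb τ (Function.update t p x) s).H o
  let M : B₀.Om → ℝ → ℝ := fun o x => (Shape.one L).E G (H o x) fun ξ => e o (ξ 0)
  let c : ℝ → ℝ := fun x => ∑ o, B₀.w o * M o x
  have hsp : (0 : ℝ) < s p := Nat.cast_pos.2 hs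
  have hm := G.m_pos 1 le_rfl hL
  have hH : ∀ o x ξ, HasDerivAt (fun v => H o v ξ) ((s p : ℝ) * e o ξ) x := by
    intro o x ξ
    refine ((HasDerivAt.fun_sum fun q _ => HasDerivAt.fun_sum fun c _ =>
      hasDerivAt_term_update τ t p q (o.2 q c) (fun a => (ξ a).2 q c) (B.cfg fun a => (ξ a).1) x).const_add
      (B.H o.1 fun a => (ξ a).1)).congr_deriv ?_
    rw [Finset.sum_eq_single p (fun q _ hq => by simp [hq]) (by simp)]
    simp only [if_true, e, Sys.kindEnergy]
    rw [mul_div_cancel₀ _ hsp.ne']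
  have he : ∀ o ξ, |e o ξ| ≤ 2 := by
    intro o ξ
    simp only [e, Sys.kindEnergy, abs_div, Nat.abs_cast]
    rw [div_le_iff₀ hsp]
    refine (abs_sum_le_sum_abs _ _).trans ((sum_le_card_nsmul _ _ 2 fun c _ => abs_energy_le hu _ _ _).trans ?_)
    rw [card_univ, Fintype.card_fin, nsmul_eq_mul, mul_comm]
  have hMb : ∀ o x, |M o x| ≤ 2 := fun o x => abs_E_le _ G _ fun ξ => he o _
  have hMc : ∀ o, Continuous (M o) := fun o =>
    continuous_E _ G (hH o) (φ := fun _ ξ => e o (ξ 0)) fun _ => continuous_const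
  let Q : B₀.Om → ℝ → ℝ := fun o x => (Shape.one L).E G (H o x) (fun ξ => e o (ξ 0) ^ 2)
    - ∑ t : Fin L, (Shape.one L).attW G 0 t *
        ((Shape.one L).ext 0 t t.2).E G (H o x) fun ξ => e o (ξ 0) * e o (ξ 1)
  have hQc : ∀ o, Continuous (Q o) := fun o =>
    (continuous_E _ G (hH o) (φ := fun _ ξ => e o (ξ 0) ^ 2) fun _ => continuous_const).sub
      (continuous_finsetSum _ fun t _ => (continuous_E _ G (hH o)
        (φ := fun _ ξ => e o (ξ 0) * e o (ξ 1)) fun _ => continuous_const).const_mul _)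
  have hMd : ∀ o x, HasDerivAt (M o) ((s p : ℝ) * Q o x) x := fun o x => hasDerivAt_E_slope G (hH o) x
  have hmono : ∀ o, Monotone fun x => (s p : ℝ) * M o x := fun o =>
    (monotone_of_hasDerivAt_nonneg (fun x => hMd o x)
      fun x => mul_nonneg hsp.le (slope_variance_nonneg G hL _ _)).const_mul hsp.le
  -- the slope part
  have hslope := @slope_concentration_finite B₀.Om _ ⊤ (@MeasurableSingletonClass.mk B₀.Om ⊤ fun _ => trivial) B₀.w B₀.w_nonneg B₀.w_sum
    (fun o x => vAt G (H o x) 0 fun _ => Classical.arbitrary B₀.Z) (fun o x => (s p : ℝ) * M o x)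
    w h (2 * s p) D hw.le hh
    (fun o x => by
      refine (rootStmt L B₀.Z G (H o) (fun ξ => (s p : ℝ) * e o ξ) _ x (hH o x)).congr_deriv ?_
      exact E_const_mul _ G _ _ _)
    hmono
    (fun o x => by
      rw [abs_mul, Nat.abs_cast, mul_comm 2 (s p : ℝ)]
      exact mul_le_mul_of_nonneg_left (hMb o x) hsp.le)
    (fun x hx => hD x hx)
  have habs : ∀ x, (∑ o, B₀.w o * |(s p : ℝ) * M o x - ∑ o', B₀.w o' * ((s p : ℝ) * M o' x)|)
      = (s p : ℝ) * ∑ o, B₀.w o * |M o x - c x| := by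
    intro x
    have hc : ∑ o', B₀.w o' * ((s p : ℝ) * M o' x) = (s p : ℝ) * c x := by
      simp only [c, mul_sum, mul_left_comm (s p : ℝ)]
    rw [mul_sum, hc]
    refine sum_congr rfl fun o _ => ?_
    rw [← mul_sub, abs_mul, Nat.abs_cast, mul_left_comm]
  simp only [habs, intervalIntegral.integral_const_mul] at hslope
  -- the thermal part
  set r := √(G.m 1 * s p) with hr
  have hr0 : 0 < r := sqrt_pos.2 (mul_pos hm hsp)
  have hq0 : 0 < √w := sqrt_pos.2 hw
  set l := 2 / (r * √w) with hl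
  have hl0 : 0 < l := div_pos two_pos (mul_pos hr0 hq0)
  have hdev : ∀ x, B.energyDev G τ (Function.update t p x) s p
      ≤ (∑ o, B₀.w o * ((s p : ℝ) * Q o x)) / (2 * l * r ^ 2) + l / 2 + ∑ o, B₀.w o * |M o x - c x| := by
    intro x
    have key : ∀ o, (Shape.one L).E G (H o x) (fun ξ => |e o (ξ 0) - c x|)
        ≤ (s p : ℝ) * Q o x / (2 * l * r ^ 2) + l / 2 + |M o x - c x| := fun o => by
      refine (E_abs_sub_le G hL (H o x) (e o) (c x) l hl0).trans (le_of_eq ?_)
      rw [hr, sq_sqrt (mul_pos hm hsp).le]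
      simp only [M]
      congr 2
      show Q o x / _ = _
      field_simp
    show ∑ o, B₀.w o * (Shape.one L).E G (H o x) (fun ξ => |e o (ξ 0) - c x|) ≤ _
    refine (sum_le_sum fun o _ => mul_le_mul_of_nonneg_left (key o) (B₀.w_nonneg o)).trans (le_of_eq ?_)
    simp only [mul_add, sum_add_distrib, ← mul_div_assoc, ← sum_div, ← sum_mul, B₀.w_sum, one_mul]
  have hcc : Continuous c := continuous_finsetSum _ fun o _ => (hMc o).const_mul _
  have hdc' : Continuous fun x => ∑ o, B₀.w o * (Shape.one L).E G (H o x) fun ξ => |e o (ξ 0) - c x| := by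
    refine continuous_finsetSum _ fun o _ => Continuous.const_mul ?_ (B₀.w o)
    refine continuous_E (Shape.one L) G (hH o) (φ := fun x ξ => |e o (ξ 0) - c x|) ?_
    intro ξ
    exact ((continuous_const (y := e o (ξ 0))).sub hcc).abs
  have hdc : Continuous fun x => B.energyDev G τ (Function.update t p x) s p := hdc'
  have hSc : Continuous fun x => ∑ o, B₀.w o * ((s p : ℝ) * Q o x) :=
    continuous_finsetSum _ fun o _ => ((hQc o).const_mul _).const_mul _
  have hAc : Continuous fun x => ∑ o, B₀.w o * |M o x - c x| :=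
    continuous_finsetSum _ fun o _ => ((hMc o).sub hcc).abs.const_mul _
  have hc1 := ((hSc.div_const (2 * l * r ^ 2)).intervalIntegrable 0 w (μ := volume))
  have htot : ∫ x in (0 : ℝ)..w, (∑ o, B₀.w o * ((s p : ℝ) * Q o x)) ≤ 4 := by
    rw [intervalIntegral.integral_eq_sub_of_hasDerivAt (f := c) (fun x _ =>
      HasDerivAt.fun_sum fun o _ => (hMd o x).const_mul _) (hSc.intervalIntegrable _ _)]
    have hb : ∀ x, |c x| ≤ 2 := fun x => by
      calc |c x| ≤ ∑ o, |B₀.w o * M o x| := abs_sum_le_sum_abs _ _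
        _ ≤ ∑ o, B₀.w o * 2 := sum_le_sum fun o _ => by
          rw [abs_mul, abs_of_nonneg (B₀.w_nonneg o)]
          exact mul_le_mul_of_nonneg_left (hMb o x) (B₀.w_nonneg o)
        _ = 2 := by rw [← sum_mul, B₀.w_sum, one_mul]
    linarith [(abs_le.1 (hb w)).2, (abs_le.1 (hb 0)).1]
  refine (intervalIntegral.integral_mono_on hw.le (hdc.intervalIntegrable _ _)
    ((((hSc.div_const _).add continuous_const).add hAc).intervalIntegrable _ _)
    fun x _ => hdev x).trans ?_
  simp only [Pi.add_apply]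
  rw [intervalIntegral.integral_add ((hSc.div_const _).fun_add continuous_const |>.intervalIntegrable _ _)
      (hAc.intervalIntegrable _ _),
    intervalIntegral.integral_add hc1 intervalIntegrable_const, intervalIntegral.integral_div,
    intervalIntegral.integral_const, sub_zero, smul_eq_mul]
  have h2 : (∫ x in (0 : ℝ)..w, ∑ o, B₀.w o * |M o x - c x|) ≤ 3 * w * D / (s p * h) + 8 * h := by
    rw [← le_div_iff₀' hsp] at hslope
    refine hslope.trans (le_of_eq ?_)
    field_simp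
    ring
  have h1 : (∫ x in (0 : ℝ)..w, ∑ o, B₀.w o * ((s p : ℝ) * Q o x)) / (2 * l * r ^ 2) + w * (l / 2)
      ≤ 2 * √(w / (G.m 1 * s p)) := by
    refine (add_le_add (div_le_div_of_nonneg_right htot (by positivity)) le_rfl).trans (le_of_eq ?_)
    rw [sqrt_div hw.le, ← hr, hl]
    have hq : √w * √w = w := mul_self_sqrt hw.le
    field_simp
    nlinarith
  linarith

end Vale.Agent.P168
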