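import Vale.Agent.P168.Tree.Place
import Vale.Agent.P168.Analysis

/-!
# P168: random systems, the perturbing terms and the identity they give
-/

open Real Finset MeasureTheory

namespace Vale.Agent.P168

/-- A system with random root data, `L` levels and `N` spins read at the leaves. -/
structure Sys (L N : ℕ) where
  /-- root data -/
  Om : Type
  [fOm : Fintype Om]
  /-- labels -/
  Z : Type
  [fZ : Fintype Z]
  [dZ : DecidableEq Z]
  [neZ : Nonempty Z]
  /-- the law of the root data -/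
  w : Om → ℝ
  w_nonneg : ∀ o, 0 ≤ w o
  w_sum : ∑ o, w o = 1
  /-- the potential -/
  H : Om → (Fin L → Z) → ℝ
  /-- the configuration of a leaf -/
  cfg : (Fin L → Z) → Fin N → Bool

attribute [instance] Sys.fOm Sys.fZ Sys.dZ Sys.neZ

variable {L N n b : ℕ}

/-- Expectation over the root data and the replicas. -/
noncomputable def Sys.E (B : Sys L N) (G : Grid L) (S : Shape L n)
    (φ : B.Om → (Fin n → Fin L → B.Z) → ℝ) : ℝ :=
  ∑ o, B.w o * S.E G (B.H o) (φ o)

/-- The spins of the replicas. -/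
def Sys.spins (B : Sys L N) (ξ : Fin n → Fin L → B.Z) : Fin n → Fin N → Bool := fun l => B.cfg (ξ l)

/-- The multioverlap of a list of replicas. -/
noncomputable def overlap (col : List (Fin n)) (σ : Fin n → Fin N → Bool) : ℝ :=
  mean fun i : Fin N => (col.map fun l => spin (σ l i)).prod

/-- A join matrix read from a list of lists. -/
def joinMat (n : ℕ) (l : List (List ℕ)) : Fin (n + 1) → Fin (n + 1) → ℕ :=
  fun a c => (l.getD a []).getD c 0

/-- The two sides of the identity for `n` colours, a test position, an observable and a weight of joins. -/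
noncomputable def Sys.identDiff (B : Sys L N) (G : Grid L) (n : ℕ) (S : Shape L b) (r : Fin b)
    (f : (Fin b → Fin N → Bool) → ℝ) (κ : (Fin (n + 1) → Fin (n + 1) → ℕ) → ℝ) : ℝ :=
  Pos.place G n (⟨b, S, id, [r]⟩ : Pos L b) (fun Q => κ (joinMat n Q.joins) *
      B.E G Q.S fun _ ξ => f (fun c => B.spins ξ (Q.base c)) * overlap Q.col (B.spins ξ))
    - B.E G S (fun _ ξ => f (B.spins ξ)) *
      Pos.place G n (⟨1, Shape.one L, id, [0]⟩ : Pos L 1) fun Q => κ (joinMat n Q.joins) *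
        B.E G Q.S fun _ ξ => overlap Q.col (B.spins ξ)

/-- The identity holds up to `η` for at most `D` colours and test replicas. -/
def Sys.Ident (B : Sys L N) (G : Grid L) (D : ℕ) (η : ℝ) : Prop :=
  ∀ (n b : ℕ), n ≤ D → b ≤ D → ∀ (S : Shape L b) (r : Fin b) (f : (Fin b → Fin N → Bool) → ℝ)
    (κ : (Fin (n + 1) → Fin (n + 1) → ℕ) → ℝ), (∀ σ, |f σ| ≤ 1) → (∀ M, |κ M| ≤ 1) →
    (∀ (e : Equiv.Perm (Fin (n + 1))) M, e 0 = 0 → κ (fun a c => M (e a) (e c)) = κ M) →
    |B.identDiff G n S r f κ| ≤ η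

/-- The law of the shapes of `d + 1` replicas, as signed sums. -/
noncomputable def seqMean (G : Grid L) (d : ℕ) (Φ : Pos L 1 → ℝ) : ℝ :=
  (-1) ^ d * Pos.place G d (⟨1, Shape.one L, id, [0]⟩ : Pos L 1) Φ / d.factorial

/-- The mean deviation of the multioverlap of `d + 1` replicas from its mean given the shape. -/
noncomputable def Sys.seqDev (B : Sys L N) (G : Grid L) (d : ℕ) : ℝ :=
  seqMean G d fun Q => B.E G Q.S fun _ ξ =>
    |overlap Q.col (B.spins ξ) - B.E G Q.S fun _ ξ' => overlap Q.col (B.spins ξ')|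

/-- The grid with masses `1 / L`. -/
noncomputable def uniformGrid (L : ℕ) (hL : 0 < L) : Grid L where
  m := fun t => t / L
  m_zero := by simp
  m_last := div_self (Nat.cast_ne_zero.2 hL.ne')
  m_pos := fun t ht _ => div_pos (Nat.cast_pos.2 ht) (Nat.cast_pos.2 hL)
  m_mono := fun t _ => by gcongr; linarith

/-- Multioverlaps concentrate given the shape. -/
def ConcStmt : Prop :=
  ∀ (D : ℕ) (ε : ℝ), 0 < ε → ∃ L₀ : ℕ, ∀ L, ∀ hL : 0 < L, L₀ ≤ L → ∃ C : ℝ, 0 ≤ C ∧
    ∀ (N : ℕ), 0 < N → ∀ (B : Sys L N) (η : ℝ), B.Ident (uniformGrid L hL) (2 * D + 2) η →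
      ∀ d ≤ D, B.seqDev (uniformGrid L hL) d ≤ ε + C * η

/-- A kind of perturbing term: colours, join levels and strength. -/
structure Kind (L : ℕ) where
  /-- the number of colours -/
  n : ℕ
  /-- the levels of the label pairs -/
  T : Fin (n + 1) → Fin (n + 1) → Fin L
  /-- the strength -/
  u : ℝ

/-- The labels of one term at one level. -/
abbrev Kind.Lab (τ : Kind L) : Type := Fin (τ.n + 1) → Fin (τ.n + 1) → Bool

/-- The root data of one term: a site and the signs of the colours. -/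
abbrev Kind.Root (τ : Kind L) (N : ℕ) : Type := Fin N × (Fin τ.n → Bool)

/-- The label character of colour `j`. -/
noncomputable def Kind.chi (τ : Kind L) (lab : Fin L → τ.Lab) (j : Fin (τ.n + 1)) : ℝ :=
  ∏ a, ∏ c, if a < c ∧ (a = j ∨ c = j) ∧ 0 < (τ.T a c : ℕ) then
    spin (lab ⟨(τ.T a c : ℕ) - 1, lt_of_le_of_lt (Nat.sub_le _ _) (τ.T a c).2⟩ a c) else 1

/-- The colour field of one term. -/
noncomputable def Kind.field (τ : Kind L) (root : τ.Root N) (lab : Fin L → τ.Lab) (σ : Fin N → Bool) : ℝ :=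
  spin (σ root.1) * ∑ j : Fin τ.n, spin (root.2 j) * τ.chi lab j.succ

/-- The energy of one term. -/
noncomputable def Kind.energy (τ : Kind L) (root : τ.Root N) (lab : Fin L → τ.Lab) (σ : Fin N → Bool) : ℝ :=
  (∏ j, spin (root.2 j)) * τ.chi lab 0 * spin (σ root.1) / (1 + τ.u * τ.field root lab σ)

/-- The potential of one term. -/
noncomputable def Kind.term (τ : Kind L) (t : ℝ) (root : τ.Root N) (lab : Fin L → τ.Lab)
    (σ : Fin N → Bool) : ℝ :=
  log (1 + τ.u * τ.field root lab σ) + t * τ.energy root lab σ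

/-- Add `s p` terms of kind `τ p` with parameters `t p`. -/
noncomputable def Sys.perturb (B : Sys L N) [NeZero N] {P : ℕ} (τ : Fin P → Kind L) (t : Fin P → ℝ)
    (s : Fin P → ℕ) : Sys L N where
  Om := B.Om × (∀ p, Fin (s p) → (τ p).Root N)
  Z := B.Z × (∀ p, Fin (s p) → (τ p).Lab)
  w := fun o => B.w o.1 / Fintype.card (∀ p, Fin (s p) → (τ p).Root N)
  w_nonneg := fun o => div_nonneg (B.w_nonneg _) (Nat.cast_nonneg _)
  w_sum := by
    rw [Fintype.sum_prod_type]
    simp only [Finset.sum_const, Finset.card_univ, nsmul_eq_mul]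
    rw [← B.w_sum]
    exact Finset.sum_congr rfl fun o _ => mul_div_cancel₀ _ (Nat.cast_ne_zero.2 Fintype.card_ne_zero)
  H := fun o ξ => B.H o.1 (fun a => (ξ a).1) + ∑ p, ∑ c : Fin (s p),
    (τ p).term (t p) (o.2 p c) (fun a => (ξ a).2 p c) (B.cfg fun a => (ξ a).1)
  cfg := fun ξ => B.cfg fun a => (ξ a).1

/-- The root value averaged over the root data, and its mean absolute deviation. -/
noncomputable def Sys.rootDev (B : Sys L N) (G : Grid L) : ℝ :=
  let ψ := fun o => vAt G (B.H o) 0 fun _ => Classical.arbitrary B.Z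
  ∑ o, B.w o * |ψ o - ∑ o', B.w o' * ψ o'|

/-- The energy of kind `p` per term. -/
noncomputable def Sys.kindEnergy (B : Sys L N) [NeZero N] {P : ℕ} (τ : Fin P → Kind L) (t : Fin P → ℝ)
    (s : Fin P → ℕ) (p : Fin P) (o : (B.perturb τ t s).Om) (ξ : Fin L → (B.perturb τ t s).Z) : ℝ :=
  (∑ c : Fin (s p), (τ p).energy (o.2 p c) (fun a => (ξ a).2 p c) (B.cfg fun a => (ξ a).1)) / s p

/-- The mean deviation of one energy. -/
noncomputable def Sys.energyDev (B : Sys L N) [NeZero N] (G : Grid L) {P : ℕ} (τ : Fin P → Kind L)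
    (t : Fin P → ℝ) (s : Fin P → ℕ) (p : Fin P) : ℝ :=
  (B.perturb τ t s).E G (Shape.one L) fun o ξ => |B.kindEnergy τ t s p o (ξ 0)
    - (B.perturb τ t s).E G (Shape.one L) fun o' ξ' => B.kindEnergy τ t s p o' (ξ' 0)|

/-- Energies concentrate on average over their parameter. -/
def EnergyStmt : Prop :=
  ∀ (L : ℕ) (G : Grid L) (N : ℕ) [NeZero N] (B : Sys L N) (P : ℕ) (τ : Fin P → Kind L) (s : Fin P → ℕ)
    (t : Fin P → ℝ) (p : Fin P) (w h D : ℝ), 0 < w → 0 < h → 0 < L → 0 < s p →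
    |(τ p).u| * (τ p).n ≤ 1 / 2 →
    (∀ x ∈ Set.Icc (-h) (w + h), (B.perturb τ (Function.update t p x) s).rootDev G ≤ D) →
    ∫ x in (0 : ℝ)..w, B.energyDev G τ (Function.update t p x) s p
      ≤ 3 * w * D / (s p * h) + 8 * h + 2 * √(w / (G.m 1 * s p))

/-- The identity at one kind, from the deviation of its energy. -/
def TermStmt : Prop :=
  ∀ (n b : ℕ), ∃ C : ℝ, 0 ≤ C ∧ ∀ (L : ℕ) (G : Grid L) (N : ℕ) [NeZero N] (B : Sys L N) (P : ℕ)
    (τ : Fin P → Kind L) (s : Fin P → ℕ) (t : Fin P → ℝ) (p : Fin P) (h : (τ p).n = n),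
    0 < |(τ p).u| → |(τ p).u| * n ≤ 1 / 2 → |t p| ≤ 1 →
    ∀ (S : Shape L b) (r : Fin b) (f : (Fin b → Fin N → Bool) → ℝ), (∀ σ, |f σ| ≤ 1) →
      |(B.perturb τ t s).identDiff G n S r f (fun M => ∑ e : Equiv.Perm (Fin n),
          ∏ a, ∏ c, if a < c then (if ((τ p).T (Fin.cast (by rw [h]) a) (Fin.cast (by rw [h]) c) : ℕ)
            ≤ M (Equiv.Perm.decomposeFin.symm (0, e) a) (Equiv.Perm.decomposeFin.symm (0, e) c)
            then (1 : ℝ) else 0) else 1)|
        ≤ C * (|(τ p).u| + |t p| / |(τ p).u| ^ n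
          + B.energyDev G τ t (Function.update s p (s p + 1)) p / |(τ p).u| ^ n)

end Vale.Agent.P168
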