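import Vale.Agent.P168.Perturb.Term
import Vale.Agent.P168.Lower.Pins

/-!
# P168: finitely many kinds give the identity for every weight of the joins
-/

open Real Finset

namespace Vale.Agent.P168

variable {L n b N : ℕ}

/-- The pairs of colours. -/
abbrev Pairs (n : ℕ) : Type := {k : Fin (n + 1) × Fin (n + 1) // k.1 < k.2}

/-- The permutation of the colours fixing the first one. -/
abbrev colPerm (e : Equiv.Perm (Fin n)) : Equiv.Perm (Fin (n + 1)) :=
  Equiv.Perm.decomposeFin.symm (0, e)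

/-- The kind with given levels of the pairs. -/
def kindOf (hL : 0 < L) (n : ℕ) (u : ℝ) (T : Pairs n → Fin L) : Kind L where
  n := n
  T := fun a c => if h : a < c then T ⟨(a, c), h⟩ else ⟨0, hL⟩
  u := u

theorem place_sum_mul (G : Grid L) {ι : Type} [Fintype ι] (w : ι → ℝ) (Φ : ι → Pos L b → ℝ) :
    ∀ (q : ℕ) (P : Pos L b),
      P.place G q (fun Q => ∑ i, w i * Φ i Q) = ∑ i, w i * P.place G q (Φ i)
  | 0, _ => rfl
  | q + 1, P => by
    simp only [Pos.place, place_sum_mul G w Φ q]
    exact step_sum_mul G P w fun i P' => P'.place G q (Φ i)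

theorem prod_pairs (F : Fin (n + 1) → Fin (n + 1) → ℝ) :
    ∏ a, ∏ c, (if a < c then F a c else 1) = ∏ k : Pairs n, F k.1.1 k.1.2 := by
  rw [← Fintype.prod_prod_type' (fun a c => if a < c then F a c else 1), ← prod_filter]
  exact prod_subtype _ (by simp) _

theorem kapT_kindOf (hL : 0 < L) (u : ℝ) (T : Pairs n → Fin L) (M : Fin (n + 1) → Fin (n + 1) → ℕ) :
    kapT (kindOf hL n u T) M = ∑ e : Equiv.Perm (Fin n), ∏ k : Pairs n,
      if (T k : ℕ) ≤ M (colPerm e k.1.1) (colPerm e k.1.2) then (1 : ℝ) else 0 := by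
  refine sum_congr rfl fun e _ => ?_
  show ∏ a : Fin (n + 1), ∏ c : Fin (n + 1), (if a < c then
    (if ((if h : a < c then T ⟨(a, c), h⟩ else ⟨0, hL⟩ : Fin L) : ℕ) ≤ M (colPerm e a) (colPerm e c)
      then (1 : ℝ) else 0) else 1) = _
  rw [prod_pairs fun a c => if ((if h : a < c then T ⟨(a, c), h⟩ else ⟨0, hL⟩ : Fin L) : ℕ)
    ≤ M (colPerm e a) (colPerm e c) then (1 : ℝ) else 0]
  refine prod_congr rfl fun k _ => if_congr ?_ rfl rfl
  rw [dif_pos k.2]
  exact Iff.rfl

/-- The levels raised by one on a set of pairs. -/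
def raise (T : Pairs n → Fin L) (U : Finset (Pairs n)) : Pairs n → Fin L := fun k =>
  if h : k ∈ U ∧ (T k : ℕ) + 1 < L then ⟨(T k : ℕ) + 1, h.2⟩ else T k

/-- The sign of a set of raised pairs. -/
noncomputable def raiseSign (T : Pairs n → Fin L) (U : Finset (Pairs n)) : ℝ :=
  ∏ k ∈ U, if (T k : ℕ) + 1 < L then -1 else 0

theorem abs_raiseSign_le (T : Pairs n → Fin L) (U : Finset (Pairs n)) : |raiseSign T U| ≤ 1 := by
  rw [raiseSign, abs_prod]
  exact prod_le_one (fun _ _ => abs_nonneg _) fun k _ => by split_ifs <;> simp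

/-- The pattern of levels `T` is singled out by thresholds. -/
theorem prod_eq_indicator (T : Pairs n → Fin L) (x : Pairs n → ℕ) (hx : ∀ k, x k < L) :
    ∑ U : Finset (Pairs n), raiseSign T U * ∏ k, (if (raise T U k : ℕ) ≤ x k then (1 : ℝ) else 0)
      = if ∀ k, x k = T k then 1 else 0 := by
  classical
  have h1 : (if ∀ k, x k = T k then (1 : ℝ) else 0) = ∏ k,
      ((if (T k : ℕ) + 1 < L then -(if (T k : ℕ) + 1 ≤ x k then (1 : ℝ) else 0) else 0)
        + (if (T k : ℕ) ≤ x k then (1 : ℝ) else 0)) := by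
    have h2 : ∀ k, (if (T k : ℕ) + 1 < L then -(if (T k : ℕ) + 1 ≤ x k then (1 : ℝ) else 0) else 0)
        + (if (T k : ℕ) ≤ x k then (1 : ℝ) else 0) = if x k = T k then 1 else 0 := fun k => by
      have := hx k
      split_ifs <;> first | (exfalso; omega) | norm_num
    simp only [h2]
    rw [prod_boole]
    simp
  rw [h1, prod_add, Finset.powerset_univ]
  refine sum_congr rfl fun U _ => ?_
  rw [← prod_mul_prod_compl U, ← compl_eq_univ_sdiff, ← mul_assoc, raiseSign, ← prod_mul_distrib]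
  congr 1
  · refine prod_congr rfl fun k hk => ?_
    by_cases h : (T k : ℕ) + 1 < L
    · simp [raise, hk, h]
      split_ifs <;> norm_num
    · simp [h]
  · exact prod_congr rfl fun k hk => by simp [raise, mem_compl.1 hk]

/-- The matrix with the given levels of the pairs. -/
def pairMat (T : Pairs n → Fin L) (a c : Fin (n + 1)) : ℕ :=
  if h : a < c then T ⟨(a, c), h⟩ else if h : c < a then T ⟨(c, a), h⟩ else L

/-- A symmetric weight of joins is a combination of the weights of the kinds. -/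
theorem kappa_decomp (hL : 0 < L) (u : ℝ) (κ : (Fin (n + 1) → Fin (n + 1) → ℕ) → ℝ)
    (hκ : ∀ (e : Equiv.Perm (Fin (n + 1))) M, e 0 = 0 → κ (fun a c => M (e a) (e c)) = κ M)
    (M : Fin (n + 1) → Fin (n + 1) → ℕ) (hsymm : ∀ a c, M a c = M c a) (hdiag : ∀ a, M a a = L)
    (hlt : ∀ a c, a ≠ c → M a c < L) :
    κ M = ∑ i : (Pairs n → Fin L) × Finset (Pairs n),
      κ (pairMat i.1) / n.factorial * raiseSign i.1 i.2 * kapT (kindOf hL n u (raise i.1 i.2)) M := by
  classical
  have hlt' : ∀ (e : Equiv.Perm (Fin n)) (k : Pairs n), M (colPerm e k.1.1) (colPerm e k.1.2) < L :=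
    fun e k => hlt _ _ fun h => k.2.ne ((colPerm e).injective h)
  have hone : ∀ e : Equiv.Perm (Fin n), (∑ T : Pairs n → Fin L,
      κ (pairMat T) * if ∀ k, M (colPerm e k.1.1) (colPerm e k.1.2) = T k then (1 : ℝ) else 0) = κ M := by
    intro e
    set T₀ : Pairs n → Fin L := fun k => ⟨_, hlt' e k⟩
    rw [sum_eq_single T₀ (fun T _ hT => by
        rw [if_neg fun h => hT (funext fun k => Fin.ext (h k).symm), mul_zero]) (by simp),
      if_pos fun k => rfl, mul_one, ← hκ (colPerm e) M (Equiv.Perm.decomposeFin_symm_apply_zero 0 e)]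
    congr 1
    funext a c
    simp only [pairMat, T₀]
    rcases lt_trichotomy a c with h | rfl | h
    · rw [dif_pos h]
    · simp [hdiag]
    · rw [dif_neg h.not_gt, dif_pos h, hsymm]
  have hcard : ∑ _e : Equiv.Perm (Fin n), κ M = n.factorial * κ M := by
    simp [Fintype.card_perm]
  calc κ M = (∑ e : Equiv.Perm (Fin n), ∑ T : Pairs n → Fin L, κ (pairMat T) *
          if ∀ k, M (colPerm e k.1.1) (colPerm e k.1.2) = T k then (1 : ℝ) else 0) / n.factorial := by
        rw [sum_congr rfl fun e _ => hone e, hcard,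
          mul_div_cancel_left₀ _ (Nat.cast_ne_zero.2 n.factorial_ne_zero)]
    _ = _ := by
        rw [sum_comm, sum_div, Fintype.sum_prod_type]
        refine sum_congr rfl fun T _ => ?_
        simp only [kapT_kindOf, mul_sum, sum_div]
        rw [sum_comm (s := (univ : Finset (Finset (Pairs n))))]
        refine sum_congr rfl fun e _ => ?_
        rw [← prod_eq_indicator T _ (hlt' e), mul_sum, sum_div]
        exact sum_congr rfl fun U _ => by ring

/-- The identity for a weight of joins follows from the identities of the kinds. -/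
theorem identDiff_le (B : Sys L N) (G : Grid L) (hL : 0 < L) (u : ℝ) (S : Shape L b) (r : Fin b)
    (f : (Fin b → Fin N → Bool) → ℝ) (κ : (Fin (n + 1) → Fin (n + 1) → ℕ) → ℝ)
    (hb : ∀ M, |κ M| ≤ 1)
    (hκ : ∀ (e : Equiv.Perm (Fin (n + 1))) M, e 0 = 0 → κ (fun a c => M (e a) (e c)) = κ M) {δ : ℝ}
    (hδ : ∀ T : Pairs n → Fin L, |B.identDiff G n S r f (kapT (kindOf hL n u T))| ≤ δ) :
    |B.identDiff G n S r f κ| ≤ Fintype.card ((Pairs n → Fin L) × Finset (Pairs n)) * δ := by
  classical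
  set co : (Pairs n → Fin L) × Finset (Pairs n) → ℝ :=
    fun i => κ (pairMat i.1) / n.factorial * raiseSign i.1 i.2
  have hplace : ∀ {b' : ℕ} (P : Pos L b'), P.col.Nodup → P.col.length = 1 → ∀ V : Pos L b' → ℝ,
      P.place G n (fun Q => κ (joinMat n Q.joins) * V Q) = ∑ i, co i *
        P.place G n (fun Q => kapT (kindOf hL n u (raise i.1 i.2)) (joinMat n Q.joins) * V Q) := by
    intro b' P hnd hl V
    rw [← place_sum_mul]
    refine place_congr G n P hnd fun Q hQ hlen => ?_
    have hj : ∀ a c : Fin (n + 1), joinMat n Q.joins a c =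
        Q.S.J (Q.col[(a : ℕ)]'(by omega)) (Q.col[(c : ℕ)]'(by omega)) := fun a c => by
      have h1 : (a : ℕ) < Q.col.length := by omega
      have h2 : (c : ℕ) < Q.col.length := by omega
      simp [joinMat, Pos.joins, List.getD_eq_getElem?_getD, List.getElem?_eq_getElem h1,
        List.getElem?_eq_getElem h2]
    rw [kappa_decomp hL u κ hκ _ (fun a c => by rw [hj, hj, Q.S.symm]) (fun a => by rw [hj, Q.S.self])
      (fun a c h => by
        rw [hj]
        exact Q.S.ne _ _ fun e => h (Fin.ext ((hQ.getElem_inj_iff).1 e))), sum_mul]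
    exact sum_congr rfl fun i _ => mul_assoc _ _ _
  have e : B.identDiff G n S r f κ = ∑ i, co i * B.identDiff G n S r f
      (kapT (kindOf hL n u (raise i.1 i.2))) := by
    simp only [Sys.identDiff]
    rw [hplace (⟨b, S, id, [r]⟩ : Pos L b) (List.nodup_singleton r) rfl,
      hplace (⟨1, Shape.one L, id, [0]⟩ : Pos L 1) (List.nodup_singleton 0) rfl, mul_sum,
      ← sum_sub_distrib]
    exact sum_congr rfl fun i _ => by ring
  rw [e]
  refine (abs_sum_le_sum_abs _ _).trans ((sum_le_card_nsmul _ _ δ fun i _ => ?_).trans ?_)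
  · rw [abs_mul]
    refine (mul_le_mul_of_nonneg_right (?_ : |co i| ≤ 1) (abs_nonneg _)).trans
      ((one_mul _).trans_le (hδ _))
    have hf : (1 : ℝ) ≤ n.factorial := by exact_mod_cast n.factorial_pos
    simp only [co, abs_mul, abs_div, Nat.abs_cast]
    exact mul_le_one₀ ((div_le_one (by linarith)).2 ((hb _).trans hf)) (abs_nonneg _)
      (abs_raiseSign_le _ _)
  · rw [card_univ, nsmul_eq_mul]

theorem kindsStmt : KindsStmt := by
  intro L D G η hη
  classical
  have hL : 0 < L := Nat.pos_of_ne_zero fun h => by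
    subst h
    exact zero_ne_one (G.m_zero.symm.trans G.m_last)
  choose C hC0 hC using termStmt
  let Idx := Σ n : Fin (D + 1), (Pairs (n : ℕ) → Fin L)
  set C' : ℝ := ∑ n ∈ range (D + 1), ∑ b ∈ range (D + 1), C n b
  have hC' : ∀ n b, n ≤ D → b ≤ D → C n b ≤ C' := fun n b hn hb =>
    (single_le_sum (fun b _ => hC0 n b) (mem_range.2 (Nat.lt_succ_of_le hb))).trans
      (single_le_sum (f := fun n => ∑ b ∈ range (D + 1), C n b)
        (fun n _ => sum_nonneg fun b _ => hC0 n b) (mem_range.2 (Nat.lt_succ_of_le hn)))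
  have hC'0 : 0 ≤ C' := sum_nonneg fun n _ => sum_nonneg fun b _ => hC0 n b
  set M₀ : ℝ := ∑ n ∈ range (D + 1), (Fintype.card ((Pairs n → Fin L) × Finset (Pairs n)) : ℝ)
  have hM₀ : 0 ≤ M₀ := sum_nonneg fun _ _ => Nat.cast_nonneg _
  set u : ℝ := min (1 / (2 * ((D : ℝ) + 1))) (η / (M₀ * C' + 1))
  have hu : 0 < u := lt_min (by positivity) (by positivity)
  have hu1 : u ≤ 1 := (min_le_left _ _).trans (by
    rw [div_le_one (by positivity)]; linarith [(Nat.cast_nonneg D : (0 : ℝ) ≤ D)])
  have hun : ∀ n ≤ D, |u| * (n : ℝ) ≤ 1 / 2 := fun n hn => by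
    rw [abs_of_pos hu]
    calc u * n ≤ 1 / (2 * ((D : ℝ) + 1)) * ((D : ℝ) + 1) :=
          mul_le_mul (min_le_left _ _) (by exact_mod_cast hn.trans (Nat.le_succ D)) (Nat.cast_nonneg _)
            (by positivity)
      _ = 1 / 2 := by field_simp
  let τ : Fin (Fintype.card Idx) → Kind L := fun p =>
    kindOf hL ((Fintype.equivFin Idx).symm p).1 u ((Fintype.equivFin Idx).symm p).2
  refine ⟨Fintype.card Idx, τ, M₀ * C' / u ^ D, by positivity,
    fun p => hun _ (Nat.le_of_lt_succ ((Fintype.equivFin Idx).symm p).1.2), ?_⟩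
  intro N _ B s t w hw ht n b hn hb S r f κ hf hκb hκ
  set W := w + ∑ p, B.energyDev G τ t (Function.update s p (s p + 1)) p
  have hdev : ∀ p, 0 ≤ B.energyDev G τ t (Function.update s p (s p + 1)) p := fun p => by
    refine le_trans ?_ ((B.perturb τ t (Function.update s p (s p + 1))).E_le G (Shape.one L)
      (φ := fun _ _ => 0) fun o ξ => abs_nonneg _)
    simp [Sys.E, E_const]
  have hone : ∀ T : Pairs n → Fin L,
      |(B.perturb τ t s).identDiff G n S r f (kapT (kindOf hL n u T))| ≤ C' * (u + W / u ^ D) := by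
    intro T
    obtain ⟨p, hp⟩ : ∃ p, τ p = kindOf hL n u T :=
      ⟨Fintype.equivFin Idx ⟨⟨n, Nat.lt_succ_of_le hn⟩, T⟩,
        congrArg (fun i : Idx => kindOf hL i.1 u i.2) (Equiv.symm_apply_apply _ _)⟩
    have hpn : (τ p).n = n := by rw [hp]; rfl
    have hpu : (τ p).u = u := by rw [hp]; rfl
    have h := hC n b L G N B _ τ s t p hpn (by rw [hpu]; exact abs_pos.2 hu.ne')
      (by rw [hpu]; exact hun n hn) ((ht p).trans hw) S r f hf
    have hwp : 0 ≤ w := (abs_nonneg _).trans (ht p)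
    rw [hpu, abs_of_pos hu] at h
    have hk : kapT (kindOf hL n u T) = fun M => ∑ e : Equiv.Perm (Fin n),
        ∏ a, ∏ c, if a < c then (if ((τ p).T (Fin.cast (by rw [hpn]) a) (Fin.cast (by rw [hpn]) c) : ℕ)
          ≤ M (Equiv.Perm.decomposeFin.symm (0, e) a) (Equiv.Perm.decomposeFin.symm (0, e) c)
          then (1 : ℝ) else 0) else 1 := by
      clear h
      generalize τ p = κ₀ at hp hpn
      subst hp
      rfl
    rw [hk]
    refine h.trans ?_
    have hpow : u ^ D ≤ u ^ n := pow_le_pow_of_le_one hu.le hu1 hn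
    have hdp := single_le_sum (fun p _ => hdev p) (mem_univ p)
    refine mul_le_mul (hC' n b hn hb) ?_ ?_ hC'0
    · have h1 : |t p| / u ^ n ≤ w / u ^ D := div_le_div₀ hwp (ht p) (pow_pos hu D) hpow
      have h2 : B.energyDev G τ t (Function.update s p (s p + 1)) p / u ^ n ≤
          (∑ p, B.energyDev G τ t (Function.update s p (s p + 1)) p) / u ^ D :=
        div_le_div₀ (sum_nonneg fun p _ => hdev p) hdp (pow_pos hu D) hpow
      simp only [W, add_div]
      linarith
    · have := hdev p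
      positivity
  have hmain := identDiff_le (B.perturb τ t s) G hL u S r f κ hκb hκ hone
  refine hmain.trans ?_
  set K : ℝ := (Fintype.card ((Pairs n → Fin L) × Finset (Pairs n)) : ℝ)
  have hK : K ≤ M₀ := single_le_sum (f := fun n => (Fintype.card ((Pairs n → Fin L) × Finset (Pairs n)) : ℝ))
    (fun _ _ => Nat.cast_nonneg _) (mem_range.2 (Nat.lt_succ_of_le hn))
  have T : Pairs n → Fin L := fun _ => ⟨0, hL⟩
  have h0 : 0 ≤ C' * (u + W / u ^ D) := (abs_nonneg _).trans (hone T)
  calc K * (C' * (u + W / u ^ D)) ≤ M₀ * (C' * (u + W / u ^ D)) := mul_le_mul_of_nonneg_right hK h0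
    _ = M₀ * C' * u + M₀ * C' / u ^ D * W := by ring
    _ ≤ η + M₀ * C' / u ^ D * W := by
        refine add_le_add ?_ le_rfl
        calc M₀ * C' * u ≤ (M₀ * C' + 1) * (η / (M₀ * C' + 1)) :=
              mul_le_mul (by linarith) (min_le_right _ _) hu.le (by positivity)
          _ = η := mul_div_cancel₀ _ (by positivity)

end Vale.Agent.P168
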