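import Vale.Agent.P168.Perturb.Energy

/-!
# P168: one of the perturbing terms seen as a single term added to the system of the others
-/

open Real Finset

namespace Vale.Agent.P168

variable {L n N : ℕ}

/-! ### Relabelling and independent labels -/

section Tree

variable {Z Z' A : Type} [Fintype Z] [DecidableEq Z] [Nonempty Z] [Fintype Z'] [DecidableEq Z']
  [Nonempty Z'] [Fintype A] [DecidableEq A] [Nonempty A]

theorem vAt_equiv (G : Grid L) (e : Z ≃ Z') (H' : (Fin L → Z') → ℝ) (t : ℕ) (p : Fin L → Z) :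
    vAt G (fun q => H' fun a => e (q a)) t p = vAt G H' t fun a => e (p a) := by
  induction h : L - t generalizing t p with
  | zero =>
    rw [vAt_top G _ (by omega), vAt_top G _ (by omega)]
  | succ d ih =>
    have ht : t < L := by omega
    rw [vAt_step G _ ht, vAt_step G _ ht]
    simp only [mean, Fintype.card_congr e]
    congr 3
    rw [← Equiv.sum_comp e]
    refine sum_congr rfl fun z _ => ?_
    congr 2
    rw [ih (t + 1) _ (by omega)]
    congr 1
    funext a
    simp only [putZ]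
    split_ifs <;> rfl

/-- Relabelling does not change expectations. -/
theorem E_equiv (S : Shape L n) (G : Grid L) (e : Z ≃ Z') {H : (Fin L → Z) → ℝ} {H' : (Fin L → Z') → ℝ}
    (hH : ∀ q, H q = H' fun a => e (q a)) {φ : (Fin n → Fin L → Z) → ℝ} {φ' : (Fin n → Fin L → Z') → ℝ}
    (hφ : ∀ ξ, φ ξ = φ' fun i a => e (ξ i a)) : S.E G H φ = S.E G H' φ' := by
  obtain rfl : H = fun q => H' fun a => e (q a) := funext hH
  have hmem : ∀ ξ : Fin n → Fin L → Z, (fun i a => e (ξ i a)) ∈ S.consistent ↔ ξ ∈ S.consistent :=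
    fun ξ => by simp only [mem_consistent, EmbeddingLike.apply_eq_iff_eq]
  unfold Shape.E
  congr 1
  · refine sum_bij' (fun ξ _ => fun i a => e (ξ i a)) (fun ζ _ => fun i a => e.symm (ζ i a))
      (fun ξ h => (hmem ξ).2 h) (fun ζ h => (hmem _).1 (by simpa using h))
      (fun ξ _ => by simp) (fun ζ _ => by simp) fun ξ _ => ?_
    rw [hφ]
    congr 1
    simp only [Shape.dens, incr, vAt_equiv]
  · norm_cast
    exact card_bij' (fun ξ _ => fun i a => e (ξ i a)) (fun ζ _ => fun i a => e.symm (ζ i a))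
      (fun ξ h => (hmem ξ).2 h) (fun ζ h => (hmem _).1 (by simpa using h))
      (fun ξ _ => by simp) (fun ζ _ => by simp)

theorem vAt_fst (G : Grid L) (H : (Fin L → Z) → ℝ) (t : ℕ) (p : Fin L → Z × A) :
    vAt G (fun q : Fin L → Z × A => H fun a => (q a).1) t p = vAt G H t fun a => (p a).1 := by
  induction h : L - t generalizing t p with
  | zero => rw [vAt_top G _ (by omega), vAt_top G _ (by omega)]
  | succ d ih =>
    have ht : t < L := by omega
    rw [vAt_step G _ ht, vAt_step G _ ht]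
    simp only [mean, Fintype.sum_prod_type, Fintype.card_prod]
    congr 2
    have hz : ∀ z : Z, ∀ y : A,
        exp (G.m (t + 1) * vAt G (fun q : Fin L → Z × A => H fun a => (q a).1) (t + 1) (putZ p t (z, y)))
          = exp (G.m (t + 1) * vAt G H (t + 1) (putZ (fun a => (p a).1) t z)) := fun z y => by
      rw [ih (t + 1) _ (by omega)]
      congr 3
      funext a
      simp only [putZ]
      split_ifs <;> rfl
    simp only [hz, sum_const, card_univ, nsmul_eq_mul, ← mul_sum, Nat.cast_mul]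
    rw [mul_comm (Fintype.card A : ℝ), mul_div_mul_right _ _ (Nat.cast_ne_zero.2 Fintype.card_ne_zero)]

/-- Labels that the potential does not see are independent and uniform. -/
theorem E_fst (S : Shape L n) (G : Grid L) (H : (Fin L → Z) → ℝ) (φ : (Fin n → Fin L → Z) → ℝ)
    (ψ : (Fin n → Fin L → A) → ℝ) :
    S.E G (fun q : Fin L → Z × A => H fun a => (q a).1)
        (fun ξ => φ (fun i a => (ξ i a).1) * ψ fun i a => (ξ i a).2)
      = S.E G H φ * ((∑ y ∈ S.consistent, ψ y) / (S.consistent (Z := A)).card) := by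
  have hmem : ∀ ξ : Fin n → Fin L → Z × A, ξ ∈ S.consistent ↔
      ((fun i a => (ξ i a).1) ∈ S.consistent ∧ (fun i a => (ξ i a).2) ∈ S.consistent) := fun ξ => by
    simp only [mem_consistent, Prod.ext_iff]
    exact ⟨fun h => ⟨fun i j c hc => (h i j c hc).1, fun i j c hc => (h i j c hc).2⟩,
      fun h i j c hc => ⟨h.1 i j c hc, h.2 i j c hc⟩⟩
  have hcard : (S.consistent (Z := Z × A)).card
      = (S.consistent (Z := Z)).card * (S.consistent (Z := A)).card := by
    rw [← card_product]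
    exact card_bij' (fun ξ _ => ((fun i a => (ξ i a).1), fun i a => (ξ i a).2))
      (fun η _ => fun i a => (η.1 i a, η.2 i a)) (fun ξ h => mem_product.2 ((hmem ξ).1 h))
      (fun η h => (hmem _).2 (mem_product.1 h)) (fun ξ _ => rfl) (fun η _ => rfl)
  rw [Shape.E, Shape.E, div_mul_div_comm, hcard, Nat.cast_mul, sum_mul_sum, ← sum_product']
  congr 1
  refine sum_bij' (fun ξ _ => ((fun i a => (ξ i a).1), fun i a => (ξ i a).2))
    (fun η _ => fun i a => (η.1 i a, η.2 i a)) (fun ξ h => mem_product.2 ((hmem ξ).1 h))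
    (fun η h => (hmem _).2 (mem_product.1 h)) (fun ξ _ => rfl) (fun η _ => rfl) fun ξ _ => ?_
  simp only [Shape.dens, incr, vAt_fst]
  ring

/-- Close potentials give close expectations. -/
theorem E_lip (S : Shape L n) (G : Grid L) (H₀ H₁ : (Fin L → Z) → ℝ) (φ : (Fin n → Fin L → Z) → ℝ)
    {A δ : ℝ} (hA : ∀ ξ, |φ ξ| ≤ A) (hδ : ∀ ξ, |H₁ ξ - H₀ ξ| ≤ δ) :
    |S.E G H₁ φ - S.E G H₀ φ| ≤ 2 * n * (A * δ) := by
  let H : ℝ → (Fin L → Z) → ℝ := fun v ξ => H₀ ξ + v * (H₁ ξ - H₀ ξ)
  let Y : (Fin L → Z) → ℝ := fun ξ => H₁ ξ - H₀ ξ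
  have hA0 : 0 ≤ A := (abs_nonneg _).trans (hA fun _ _ => Classical.arbitrary Z)
  have hd : ∀ v, HasDerivAt (fun v => S.E G (H v) φ)
      (S.E G (H v) (fun _ => 0) + ∑ i, (S.E G (H v) (fun ξ => φ ξ * Y (ξ i))
        - ∑ t : Fin L, S.attW G i t *
          (S.ext i t t.2).E G (H v) fun ξ => φ (fun j => ξ j.castSucc) * Y (ξ (Fin.last n)))) v :=
    fun v => derivStmt L n Z G H Y S (fun _ => φ) (fun _ => 0) v
      (fun ξ => (((hasDerivAt_id v).mul_const _).const_add _).congr_deriv (one_mul _))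
      fun ξ => hasDerivAt_const _ _
  have hbd : ∀ v, |S.E G (H v) (fun _ => 0) + ∑ i, (S.E G (H v) (fun ξ => φ ξ * Y (ξ i))
        - ∑ t : Fin L, S.attW G i t *
          (S.ext i t t.2).E G (H v) fun ξ => φ (fun j => ξ j.castSucc) * Y (ξ (Fin.last n)))|
      ≤ 2 * n * (A * δ) := fun v => by
    rw [E_const, zero_add]
    refine (abs_sum_le_sum_abs _ _).trans ((sum_le_card_nsmul _ _ (2 * (A * δ)) fun i _ => ?_).trans
      (le_of_eq (by rw [card_univ, Fintype.card_fin, nsmul_eq_mul]; ring)))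
    refine (abs_sub _ _).trans ?_
    have h1 : |S.E G (H v) (fun ξ => φ ξ * Y (ξ i))| ≤ A * δ := abs_E_le _ G _ fun ξ => by
      rw [abs_mul]; exact mul_le_mul (hA _) (hδ _) (abs_nonneg _) hA0
    have h2 : |∑ t : Fin L, S.attW G i t *
        (S.ext i t t.2).E G (H v) fun ξ => φ (fun j => ξ j.castSucc) * Y (ξ (Fin.last n))| ≤ A * δ := by
      calc _ ≤ ∑ t : Fin L, S.attW G i t * (A * δ) := (abs_sum_le_sum_abs _ _).trans <|
            sum_le_sum fun t _ => by
              rw [abs_mul, abs_of_nonneg (attW_nonneg S G t.2 i)]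
              refine mul_le_mul_of_nonneg_left (abs_E_le _ G _ fun ξ => ?_) (attW_nonneg S G t.2 i)
              rw [abs_mul]; exact mul_le_mul (hA _) (hδ _) (abs_nonneg _) hA0
        _ = A * δ := by
          rw [← sum_mul, Fin.sum_univ_eq_sum_range (fun t => S.attW G i t), range_eq_Ico,
            sum_attW _ _ (Nat.zero_le L), G.m_zero, zero_div, sub_zero, one_mul]
    linarith
  have := norm_image_sub_le_of_norm_deriv_le_segment_01' (f := fun v => S.E G (H v) φ)
    (C := 2 * n * (A * δ)) (fun v _ => (hd v).hasDerivWithinAt) (fun v _ => hbd v)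
  simpa [H, Real.norm_eq_abs] using this

end Tree

/-! ### Expectations in a system -/

theorem Sys.E_const_mul (B : Sys L N) (G : Grid L) (S : Shape L n) (c : ℝ)
    (φ : B.Om → (Fin n → Fin L → B.Z) → ℝ) :
    B.E G S (fun o ξ => c * φ o ξ) = c * B.E G S φ := by
  simp only [Sys.E, Vale.Agent.P168.E_const_mul, mul_sum]
  exact sum_congr rfl fun o _ => by ring

theorem Sys.E_sum (B : Sys L N) (G : Grid L) (S : Shape L n) {ι : Type} (I : Finset ι)
    (φ : ι → B.Om → (Fin n → Fin L → B.Z) → ℝ) :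
    B.E G S (fun o ξ => ∑ c ∈ I, φ c o ξ) = ∑ c ∈ I, B.E G S (φ c) := by
  simp only [Sys.E, Shape.E, mul_sum, sum_div]
  rw [sum_comm (γ := ι)]
  exact sum_congr rfl fun o _ => sum_comm

theorem Sys.E_le (B : Sys L N) (G : Grid L) (S : Shape L n) {φ ψ : B.Om → (Fin n → Fin L → B.Z) → ℝ}
    (h : ∀ o ξ, φ o ξ ≤ ψ o ξ) : B.E G S φ ≤ B.E G S ψ :=
  sum_le_sum fun o _ => mul_le_mul_of_nonneg_left (E_le_E S G _ (h o)) (B.w_nonneg o)

theorem Sys.abs_E_le (B : Sys L N) (G : Grid L) (S : Shape L n)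
    {φ : B.Om → (Fin n → Fin L → B.Z) → ℝ} {A : ℝ} (h : ∀ o ξ, |φ o ξ| ≤ A) : |B.E G S φ| ≤ A := by
  calc |B.E G S φ| ≤ ∑ o, B.w o * A := (abs_sum_le_sum_abs _ _).trans <| sum_le_sum fun o _ => by
        rw [abs_mul, abs_of_nonneg (B.w_nonneg o)]
        exact mul_le_mul_of_nonneg_left (Vale.Agent.P168.abs_E_le S G _ (h o)) (B.w_nonneg o)
    _ = A := by rw [← sum_mul, B.w_sum, one_mul]

theorem comap_single (S : Shape L n) (e : Fin 1 ↪ Fin n) : S.comap e = Shape.one L := by
  have h : (fun i j => S.J (e i) (e j)) = fun _ _ : Fin 1 => L := funext fun i => funext fun j => by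
    rw [Subsingleton.elim j i, S.self]
  simp [Shape.comap, Shape.one, h]

theorem Sys.E_marginal_one (B : Sys L N) (G : Grid L) (S : Shape L n) (r : Fin n)
    (φ : B.Om → (Fin L → B.Z) → ℝ) :
    B.E G S (fun o ξ => φ o (ξ r)) = B.E G (Shape.one L) fun o ξ => φ o (ξ 0) := by
  refine sum_congr rfl fun o _ => congrArg _ ?_
  have := marginalStmt L n 1 B.Z G (B.H o) S ⟨fun _ => r, fun _ _ _ => Subsingleton.elim _ _⟩
    fun ξ => φ o (ξ 0)
  rwa [comap_single] at this

/-! ### One more term -/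

/-- One more term of the kind `τ`. -/
noncomputable def Sys.addTerm (B : Sys L N) [NeZero N] (τ : Kind L) (t : ℝ) : Sys L N where
  Om := B.Om × τ.Root N
  Z := B.Z × τ.Lab
  w := fun o => B.w o.1 / Fintype.card (τ.Root N)
  w_nonneg := fun o => div_nonneg (B.w_nonneg _) (Nat.cast_nonneg _)
  w_sum := by
    rw [Fintype.sum_prod_type]
    simp only [sum_const, card_univ, nsmul_eq_mul]
    rw [← B.w_sum]
    exact sum_congr rfl fun o _ => mul_div_cancel₀ _ (Nat.cast_ne_zero.2 Fintype.card_ne_zero)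
  H := fun o ξ => B.H o.1 (fun a => (ξ a).1) + τ.term t o.2 (fun a => (ξ a).2) (B.cfg fun a => (ξ a).1)
  cfg := fun ξ => B.cfg fun a => (ξ a).1

section Split

variable {P : ℕ} (α : Fin P → Type) {s s' : Fin P → ℕ} {p : Fin P}

/-- The index of a term other than `c`. -/
def otherIdx (hp : s' p = s p + 1) (hq : ∀ q, q ≠ p → s' q = s q) (c : Fin (s p + 1)) (q : Fin P)
    (k : Fin (s q)) : Fin (s' q) :=
  if h : q = p then Fin.cast (by subst h; exact hp.symm) (c.succAbove (Fin.cast (by rw [h]) k))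
  else Fin.cast (hq q h).symm k

theorem otherIdx_self (hp : s' p = s p + 1) (hq : ∀ q, q ≠ p → s' q = s q) (c : Fin (s p + 1))
    (k : Fin (s p)) : otherIdx hp hq c p k = Fin.cast hp.symm (c.succAbove k) := by
  simp [otherIdx]

theorem otherIdx_ne (hp : s' p = s p + 1) (hq : ∀ q, q ≠ p → s' q = s q) (c : Fin (s p + 1))
    {q : Fin P} (h : q ≠ p) (k : Fin (s q)) : otherIdx hp hq c q k = Fin.cast (hq q h).symm k := by
  simp [otherIdx, h]

/-- The family without the entry `c` of `p`, and that entry. -/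
def splitAt (hp : s' p = s p + 1) (hq : ∀ q, q ≠ p → s' q = s q) (c : Fin (s p + 1))
    (x : ∀ q, Fin (s' q) → α q) : (∀ q, Fin (s q) → α q) × α p :=
  (fun q k => x q (otherIdx hp hq c q k), x p (Fin.cast hp.symm c))

theorem splitAt_bijective [∀ q, Fintype (α q)] (hp : s' p = s p + 1) (hq : ∀ q, q ≠ p → s' q = s q)
    (c : Fin (s p + 1)) : Function.Bijective (splitAt α hp hq c) := by
  classical
  rw [Fintype.bijective_iff_injective_and_card]
  constructor
  · intro x y h
    simp only [splitAt, Prod.mk.injEq] at h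
    funext q k
    by_cases hqp : q = p
    · subst hqp
      obtain ⟨k, rfl⟩ : ∃ k', Fin.cast hp.symm k' = k := ⟨Fin.cast hp k, by simp⟩
      rcases Fin.eq_self_or_eq_succAbove c k with rfl | ⟨j, rfl⟩
      · exact h.2
      · simpa [otherIdx_self] using congrFun (congrFun h.1 q) j
    · obtain ⟨k, rfl⟩ : ∃ k', Fin.cast (hq q hqp).symm k' = k := ⟨Fin.cast (hq q hqp) k, by simp⟩
      simpa [otherIdx_ne _ _ _ hqp] using congrFun (congrFun h.1 q) k
  · simp only [Fintype.card_pi, Fintype.card_prod, prod_const, card_univ, Fintype.card_fin]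
    rw [← mul_prod_erase univ _ (mem_univ p), ← mul_prod_erase univ (fun q => _ ^ s q) (mem_univ p), hp,
      pow_succ, prod_congr rfl fun q hqe => by rw [hq q (ne_of_mem_erase hqe)]]
    ring

theorem sum_splitAt (hp : s' p = s p + 1) (hq : ∀ q, q ≠ p → s' q = s q) (c : Fin (s p + 1))
    (g : ∀ q, Fin (s' q) → ℝ) :
    ∑ q, ∑ k, g q k = (∑ q, ∑ k, g q (otherIdx hp hq c q k)) + g p (Fin.cast hp.symm c) := by
  rw [← add_sum_erase univ _ (mem_univ p),
    ← add_sum_erase univ (fun q => ∑ k, g q (otherIdx hp hq c q k)) (mem_univ p)]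
  have h1 : ∑ k, g p k = g p (Fin.cast hp.symm c) + ∑ k, g p (otherIdx hp hq c p k) := by
    rw [← Equiv.sum_comp (finCongr hp.symm), Fin.sum_univ_succAbove _ c]
    simp [otherIdx_self]
  have h2 : ∀ q ∈ univ.erase p, ∑ k, g q k = ∑ k, g q (otherIdx hp hq c q k) := fun q hqe => by
    rw [← Equiv.sum_comp (finCongr (hq q (ne_of_mem_erase hqe)).symm)]
    simp [otherIdx_ne _ _ _ (ne_of_mem_erase hqe)]
  rw [h1, sum_congr rfl h2]
  ring

end Split

/-- Any term of a kind may be taken for the added one. -/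
theorem Sys.perturb_eq_addTerm (B : Sys L N) [NeZero N] (G : Grid L) {P : ℕ} (τ : Fin P → Kind L)
    (t : Fin P → ℝ) {s s' : Fin P → ℕ} {p : Fin P} (hp : s' p = s p + 1)
    (hq : ∀ q, q ≠ p → s' q = s q) (c : Fin (s p + 1)) (S : Shape L n)
    (Ψ : (τ p).Root N → (Fin n → Fin L → (τ p).Lab) → (Fin n → Fin N → Bool) → ℝ) :
    (B.perturb τ t s').E G S (fun o ξ => Ψ (o.2 p (Fin.cast hp.symm c))
        (fun i a => (ξ i a).2 p (Fin.cast hp.symm c)) ((B.perturb τ t s').spins ξ))
      = ((B.perturb τ t s).addTerm (τ p) (t p)).E G S (fun o ξ => Ψ o.2 (fun i a => (ξ i a).2)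
          (((B.perturb τ t s).addTerm (τ p) (t p)).spins ξ)) := by
  classical
  let eR := Equiv.ofBijective _ (splitAt_bijective (fun q => (τ q).Root N) hp hq c)
  let eL := Equiv.ofBijective _ (splitAt_bijective (fun q => (τ q).Lab) hp hq c)
  let eO : (B.perturb τ t s').Om ≃ ((B.perturb τ t s).addTerm (τ p) (t p)).Om :=
    ((Equiv.refl B.Om).prodCongr eR).trans (Equiv.prodAssoc _ _ _).symm
  let eZ : (B.perturb τ t s').Z ≃ ((B.perturb τ t s).addTerm (τ p) (t p)).Z :=
    ((Equiv.refl B.Z).prodCongr eL).trans (Equiv.prodAssoc _ _ _).symm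
  refine Fintype.sum_equiv eO _ _ fun o => ?_
  congr 1
  · show B.w o.1 / _ = B.w o.1 / _ / _
    rw [div_div, ← Nat.cast_mul, ← Fintype.card_prod, Fintype.card_congr eR]
  · refine E_equiv S G eZ (fun q => ?_) fun ξ => rfl
    show B.H o.1 _ + _ = B.H o.1 _ + _ + _
    rw [sum_splitAt hp hq c, add_assoc]
    rfl

end Vale.Agent.P168
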