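import Vale.Agent.P168.Perturb.AddTerm
import Vale.Agent.P168.Tree.Totals

/-!
# P168: the identity from the deviation of one energy
-/

open Real Finset

namespace Vale.Agent.P168

variable {L n b m N : ℕ}

/-! ### Placements -/

theorem col_len_hit (P : Pos L b) (l : Fin P.n) : (P.hit l).col.length = P.col.length + 1 := by
  simp [Pos.hit]

theorem col_len_new (P : Pos L b) (i : Fin P.n) (t : Fin L) :
    (P.new i t).col.length = P.col.length + 1 := by
  simp [Pos.new]

/-- Only the positions that can be reached matter. -/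
theorem place_congr (G : Grid L) {Φ Ψ : Pos L b → ℝ} :
    ∀ (q : ℕ) (P : Pos L b), P.col.Nodup →
      (∀ Q : Pos L b, Q.col.Nodup → Q.col.length = P.col.length + q → Φ Q = Ψ Q) →
      P.place G q Φ = P.place G q Ψ
  | 0, P, hnd, h => h P hnd rfl
  | q + 1, P, hnd, h => by
    refine step_congr G P (fun l hl => ?_) fun i t => ?_
    · exact place_congr G q _ (nodup_hit P hnd hl) fun Q h1 h2 =>
        h Q h1 (by rw [h2, col_len_hit]; omega)
    · exact place_congr G q _ (nodup_new P hnd i t) fun Q h1 h2 =>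
        h Q h1 (by rw [h2, col_len_new]; omega)

theorem place_zero_fun (G : Grid L) : ∀ (q : ℕ) (P : Pos L b), P.place G q (fun _ => 0) = 0
  | 0, _ => rfl
  | q + 1, P => by simp [Pos.place, Pos.step, place_zero_fun G q]

theorem step_sum_mul (G : Grid L) (P : Pos L b) {ι : Type} [Fintype ι] (w : ι → ℝ)
    (Φ : ι → Pos L b → ℝ) :
    P.step G (fun Q => ∑ i, w i * Φ i Q) = ∑ i, w i * P.step G (Φ i) := by
  simp only [Pos.step, mul_sub, sum_sub_distrib, mul_sum]
  congr 1
  · exact sum_comm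
  · conv_rhs => rw [sum_comm]
    refine sum_congr rfl fun j _ => ?_
    rw [sum_comm]
    exact sum_congr rfl fun c _ => sum_congr rfl fun t _ => by ring

theorem hasDerivAt_place (G : Grid L) {Φ : ℝ → Pos L b → ℝ} {Φ' : Pos L b → ℝ} {x : ℝ}
    (h : ∀ Q : Pos L b, Q.col ≠ [] → Q.col.Nodup → HasDerivAt (fun v => Φ v Q) (Φ' Q) x) :
    ∀ (q : ℕ) (P : Pos L b), P.col ≠ [] → P.col.Nodup →
      HasDerivAt (fun v => P.place G q (Φ v)) (P.place G q Φ') x
  | 0, P, hne, hnd => h P hne hnd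
  | q + 1, P, hne, hnd => by
    refine (HasDerivAt.fun_sum fun l hl => ?_).sub (HasDerivAt.fun_sum fun i _ =>
      HasDerivAt.fun_sum fun t _ => (hasDerivAt_place G h q _ ?_ (nodup_new P hnd i t)).const_mul _)
    · exact hasDerivAt_place G h q _ (by simp [Pos.hit]) (nodup_hit P hnd (mem_filter.1 hl).2)
    · simp [Pos.new]

/-! ### The colours of one term -/

@[simp] theorem spin_mul_self (x : Bool) : spin x * spin x = 1 := by cases x <;> simp [spin]

theorem spin_not (x : Bool) : spin (!x) = -spin x := by cases x <;> simp [spin]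

theorem chi_prod (τ : Kind L) (ys : Fin (τ.n + 1) → Fin L → τ.Lab) :
    ∏ j, τ.chi (ys j) j = ∏ a, ∏ c, if a < c ∧ 0 < (τ.T a c : ℕ) then
      spin (ys a ⟨(τ.T a c : ℕ) - 1, lt_of_le_of_lt (Nat.sub_le _ _) (τ.T a c).2⟩ a c) *
        spin (ys c ⟨(τ.T a c : ℕ) - 1, lt_of_le_of_lt (Nat.sub_le _ _) (τ.T a c).2⟩ a c) else 1 := by
  simp only [Kind.chi]
  rw [prod_comm]
  refine prod_congr rfl fun a _ => ?_
  rw [prod_comm]
  refine prod_congr rfl fun c _ => ?_
  by_cases h : a < c ∧ 0 < (τ.T a c : ℕ)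
  · rw [if_pos h]
    rw [← prod_subset (subset_univ {a, c}) fun j _ hj => ?_]
    · rw [prod_pair h.1.ne]
      simp [h.1, h.2]
    · simp only [mem_insert, mem_singleton, not_or] at hj
      rw [if_neg]
      rintro ⟨_, h1 | h1, _⟩
      · exact hj.1 h1.symm
      · exact hj.2 h1.symm
  · rw [if_neg h]
    exact prod_eq_one fun j _ => if_neg fun h' => h ⟨h'.1, h'.2.2⟩

/-- The average of a product of label characters is one exactly when every pair joins high enough. -/
theorem chi_avg (τ : Kind L) (S : Shape L m) (x : Fin (τ.n + 1) → Fin m) :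
    (∑ y ∈ S.consistent, ∏ j, τ.chi (y (x j)) j) / (S.consistent (Z := τ.Lab)).card
      = ∏ a, ∏ c, if a < c then (if (τ.T a c : ℕ) ≤ S.J (x a) (x c) then (1 : ℝ) else 0) else 1 := by
  classical
  simp only [fun y : Fin m → Fin L → τ.Lab => chi_prod τ fun j => y (x j)]
  by_cases hgood : ∀ a c, a < c → (τ.T a c : ℕ) ≤ S.J (x a) (x c)
  · rw [prod_eq_one fun a _ => prod_eq_one fun c _ => by
      by_cases h : a < c
      · rw [if_pos h, if_pos (hgood a c h)]
      · rw [if_neg h]]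
    rw [sum_congr rfl fun y hy => prod_eq_one fun a _ => prod_eq_one fun c _ => ?_]
    · rw [sum_const, nsmul_eq_mul, mul_one, div_self (Nat.cast_ne_zero.2 (consistent_pos S).ne')]
    · by_cases h : a < c ∧ 0 < (τ.T a c : ℕ)
      · rw [if_pos h, (mem_consistent S).1 hy (x a) (x c) _ (by
          have := hgood a c h.1
          simp only
          omega), spin_mul_self]
      · rw [if_neg h]
  · simp only [not_forall, not_le] at hgood
    obtain ⟨a₀, c₀, hlt, hJ⟩ := hgood
    have hzero : ∏ a, ∏ c,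
        (if a < c then (if (τ.T a c : ℕ) ≤ S.J (x a) (x c) then (1 : ℝ) else 0) else 1) = 0 :=
      prod_eq_zero (mem_univ a₀) (prod_eq_zero (mem_univ c₀) (by rw [if_pos hlt, if_neg hJ.not_ge]))
    rw [hzero, div_eq_zero_iff]
    left
    set T := (τ.T a₀ c₀ : ℕ)
    set ℓ : Fin L := ⟨T - 1, lt_of_le_of_lt (Nat.sub_le _ _) (τ.T a₀ c₀).2⟩
    let flip : (Fin m → Fin L → τ.Lab) → Fin m → Fin L → τ.Lab := fun y i d a c =>
      if T ≤ S.J i (x a₀) ∧ d = ℓ ∧ a = a₀ ∧ c = c₀ then !y i d a c else y i d a c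
    have hinv : ∀ y, flip (flip y) = y := fun y => by
      funext i d a c
      simp only [flip]
      split_ifs <;> simp
    have hmem : ∀ y ∈ S.consistent, flip y ∈ S.consistent := fun y hy => by
      refine (mem_consistent S).2 fun i j d hd => funext fun a => funext fun c => ?_
      have hy' := (mem_consistent S).1 hy i j d hd
      simp only [flip, hy']
      refine if_congr ⟨?_, ?_⟩ rfl rfl <;> rintro ⟨h1, rfl, h2⟩ <;> refine ⟨?_, rfl, h2⟩
      · have := S.ultra j i (x a₀)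
        have := S.symm i j
        simp only [ℓ] at hd
        omega
      · have := S.ultra i j (x a₀)
        simp only [ℓ] at hd
        omega
    refine eq_zero_of_neg_eq ?_
    rw [← sum_neg_distrib]
    refine sum_bij' (fun y _ => flip y) (fun y _ => flip y) hmem hmem (fun y _ => hinv y)
      (fun y _ => hinv y) fun y _ => ?_
    have hT : 0 < T := (Nat.zero_le _).trans_lt hJ
    set F : (Fin m → Fin L → τ.Lab) → Fin (τ.n + 1) × Fin (τ.n + 1) → ℝ := fun y k =>
      if k.1 < k.2 ∧ 0 < (τ.T k.1 k.2 : ℕ) then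
        spin (y (x k.1) ⟨(τ.T k.1 k.2 : ℕ) - 1, lt_of_le_of_lt (Nat.sub_le _ _) (τ.T k.1 k.2).2⟩ k.1 k.2) *
        spin (y (x k.2) ⟨(τ.T k.1 k.2 : ℕ) - 1, lt_of_le_of_lt (Nat.sub_le _ _) (τ.T k.1 k.2).2⟩ k.1 k.2)
      else 1 with hF
    have hneq : ∀ k ∈ (univ : Finset _).erase (a₀, c₀), F (flip y) k = F y k := fun k hk => by
      have hk' := ne_of_mem_erase hk
      have h : ∀ i d, flip y i d k.1 k.2 = y i d k.1 k.2 := fun i d => by
        simp only [flip]
        rw [if_neg]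
        rintro ⟨_, _, h1, h2⟩
        exact hk' (Prod.ext h1 h2)
      simp only [hF, h]
    have hown : T ≤ S.J (x a₀) (x a₀) := by rw [S.self]; exact (τ.T a₀ c₀).2.le
    have hother : ¬ T ≤ S.J (x c₀) (x a₀) := by rw [S.symm]; exact hJ.not_ge
    have hone : F (flip y) (a₀, c₀) = -F y (a₀, c₀) := by
      have e1 : flip y (x a₀) ℓ a₀ c₀ = !y (x a₀) ℓ a₀ c₀ := by simp [flip, hown]
      have e2 : flip y (x c₀) ℓ a₀ c₀ = y (x c₀) ℓ a₀ c₀ := by simp [flip, hother]
      simp only [hF]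
      rw [if_pos ⟨hlt, hT⟩, if_pos ⟨hlt, hT⟩, show (⟨(τ.T a₀ c₀ : ℕ) - 1,
        lt_of_le_of_lt (Nat.sub_le _ _) (τ.T a₀ c₀).2⟩ : Fin L) = ℓ from rfl, e1, e2, spin_not]
      ring
    have hall : ∏ k, F (flip y) k = -∏ k, F y k := by
      rw [← mul_prod_erase univ _ (mem_univ (a₀, c₀)), ← mul_prod_erase univ (F y) (mem_univ (a₀, c₀)),
        hone, prod_congr rfl hneq, neg_mul]
    simp only [Fintype.prod_prod_type, hF] at hall
    exact hall.symm

/-! ### The expansion -/

variable [NeZero N]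

/-- The colour field as a function of a leaf. -/
noncomputable def fieldX (B : Sys L N) (τ : Kind L) (ρ : τ.Root N) (ξ : Fin L → B.Z × τ.Lab) : ℝ :=
  τ.field ρ (fun a => (ξ a).2) (B.cfg fun a => (ξ a).1)

/-- The numerator of the root colour. -/
noncomputable def rootZ (B : Sys L N) (τ : Kind L) (ρ : τ.Root N) (ξ : Fin L → B.Z × τ.Lab) : ℝ :=
  (∏ j, spin (ρ.2 j)) * τ.chi (fun a => (ξ a).2) 0 * spin (B.cfg (fun a => (ξ a).1) ρ.1)

/-- The weight of a pattern of joins. -/
noncomputable def kapT (τ : Kind L) (M : Fin (τ.n + 1) → Fin (τ.n + 1) → ℕ) : ℝ :=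
  ∑ e : Equiv.Perm (Fin τ.n), ∏ a, ∏ c, if a < c then
    (if (τ.T a c : ℕ) ≤ M (Equiv.Perm.decomposeFin.symm (0, e) a) (Equiv.Perm.decomposeFin.symm (0, e) c)
      then (1 : ℝ) else 0) else 1

/-- The value of a position, averaged over the root data. -/
noncomputable def posV (B : Sys L N) (G : Grid L) (τ : Kind L) (f : (Fin b → Fin N → Bool) → ℝ)
    (v : ℝ) (Q : Pos L b) : ℝ :=
  ∑ o : B.Om × τ.Root N, B.w o.1 / Fintype.card (τ.Root N) *
    Q.val G (fun ξ => B.H o.1 fun a => (ξ a).1) (fieldX B τ o.2) (rootZ B τ o.2)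
      (fun ξ => f fun c => B.cfg fun a => (ξ c a).1) v

omit [NeZero N] in
theorem abs_fieldX_le (B : Sys L N) (τ : Kind L) (ρ : τ.Root N) (ξ : Fin L → B.Z × τ.Lab) :
    |fieldX B τ ρ ξ| ≤ τ.n := abs_field_le τ _ _ _

omit [NeZero N] in
theorem half_le_denom (B : Sys L N) {τ : Kind L} (ρ : τ.Root N) {v : ℝ} (hv : |v| * τ.n ≤ 1 / 2)
    (ξ : Fin L → B.Z × τ.Lab) : 1 / 2 ≤ 1 + v * fieldX B τ ρ ξ :=
  by
  have h : |v * fieldX B τ ρ ξ| ≤ 1 / 2 := by
    rw [abs_mul]
    exact (mul_le_mul_of_nonneg_left (abs_fieldX_le B τ ρ ξ) (abs_nonneg _)).trans hv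
  linarith [(abs_le.1 h).1]

theorem sum_root_weight (B : Sys L N) (τ : Kind L) :
    ∑ o : B.Om × τ.Root N, B.w o.1 / Fintype.card (τ.Root N) = 1 := (B.addTerm τ 0).w_sum

omit [NeZero N] in
theorem hasDerivAt_posV (B : Sys L N) (G : Grid L) (τ : Kind L) (f : (Fin b → Fin N → Bool) → ℝ)
    {v : ℝ} (hv : |v| * τ.n ≤ 1 / 2) (Q : Pos L b) (hne : Q.col ≠ []) (hnd : Q.col.Nodup) :
    HasDerivAt (fun x => posV B G τ f x Q) (Q.step G (posV B G τ f v)) v := by
  unfold posV
  rw [step_sum_mul]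
  exact HasDerivAt.fun_sum fun o _ => (derivPlaceStmt derivStmt L b _ G _ _ _ _ Q v hne hnd
    fun ξ => by linarith [half_le_denom B o.2 hv ξ]).const_mul _

theorem abs_posV_le (B : Sys L N) (G : Grid L) (τ : Kind L) {f : (Fin b → Fin N → Bool) → ℝ}
    (hf : ∀ σ, |f σ| ≤ 1) {v : ℝ} (hv : |v| * τ.n ≤ 1 / 2) (Q : Pos L b)
    (hlen : Q.col.length ≤ τ.n + 2) :
    |posV B G τ f v Q| ≤ 2 * (2 * (τ.n : ℝ) + 1) ^ (τ.n + 1) := by
  set A : ℝ := 2 * (τ.n : ℝ) + 1
  have hA : 1 ≤ A := by simp [A]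
  have hval : ∀ o : B.Om × τ.Root N, |Q.val G (fun ξ => B.H o.1 fun a => (ξ a).1) (fieldX B τ o.2)
      (rootZ B τ o.2) (fun ξ => f fun c => B.cfg fun a => (ξ c a).1) v| ≤ 2 * A ^ (τ.n + 1) := by
    intro o
    refine abs_E_le _ G _ fun ξ => ?_
    rw [abs_mul]
    refine (mul_le_of_le_one_left (abs_nonneg _) (hf _)).trans ?_
    have hX : ∀ η, |fieldX B τ o.2 η / (1 + v * fieldX B τ o.2 η)| ≤ A := fun η => by
      have h := half_le_denom B o.2 hv η
      rw [abs_div, abs_of_pos (show 0 < 1 + v * fieldX B τ o.2 η by linarith), div_le_iff₀ (by linarith)]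
      have := abs_fieldX_le B τ o.2 η
      nlinarith [Nat.cast_nonneg (α := ℝ) τ.n]
    have hZ : ∀ η, |rootZ B τ o.2 η / (1 + v * fieldX B τ o.2 η)| ≤ 2 := fun η => by
      have h := half_le_denom B o.2 hv η
      rw [abs_div, abs_of_pos (show 0 < 1 + v * fieldX B τ o.2 η by linarith), div_le_iff₀ (by linarith)]
      simp only [rootZ, abs_mul, abs_prod, abs_spin, abs_chi, prod_const_one, mul_one]
      linarith
    cases hcol : Q.col with
    | nil =>
      simp only [colProd, abs_one]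
      linarith [one_le_pow₀ (n := τ.n + 1) hA]
    | cons r rest =>
      simp only [colProd, abs_mul]
      refine mul_le_mul (hZ _) ?_ (abs_nonneg _) two_pos.le
      have hr : rest.length ≤ τ.n + 1 := by simp [hcol] at hlen; omega
      refine le_trans ?_ (pow_le_pow_right₀ hA hr)
      clear hcol hr
      induction rest with
      | nil => simp
      | cons a l ih =>
        simp only [List.map_cons, List.prod_cons, abs_mul, List.length_cons, pow_succ']
        exact mul_le_mul (hX _) ih (abs_nonneg _) (by linarith)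
  calc |posV B G τ f v Q|
      ≤ ∑ o : B.Om × τ.Root N, B.w o.1 / Fintype.card (τ.Root N) * (2 * A ^ (τ.n + 1)) :=
        (abs_sum_le_sum_abs _ _).trans <| sum_le_sum fun o _ => by
          have h0 : 0 ≤ B.w o.1 / Fintype.card (τ.Root N) := (B.addTerm τ 0).w_nonneg o
          rw [abs_mul, abs_of_nonneg h0]
          exact mul_le_mul_of_nonneg_left (hval o) h0
    _ = _ := by rw [← sum_mul, sum_root_weight, one_mul]

omit [NeZero N] in
/-- At strength zero a position with all colours gives the weighted multioverlap. -/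
theorem posV_zero (B : Sys L N) (G : Grid L) (τ : Kind L) (f : (Fin b → Fin N → Bool) → ℝ)
    (Q : Pos L b) (hlen : Q.col.length ≤ τ.n + 1) (hne : Q.col ≠ []) :
    posV B G τ f 0 Q = if Q.col.length = τ.n + 1 then kapT τ (joinMat τ.n Q.joins) *
      B.E G Q.S (fun _ ξ => f (fun c => B.spins ξ (Q.base c)) * overlap Q.col (B.spins ξ)) else 0 := by
  obtain ⟨r, rest, hcol⟩ := List.exists_cons_of_ne_nil hne
  set m := rest.length with hm
  have hmn : m ≤ τ.n := by simp [hcol] at hlen; omega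
  let φ : (Fin Q.n → Fin L → B.Z) → ℝ := fun ζ =>
    f (fun c => B.cfg (ζ (Q.base c))) * overlap Q.col fun l => B.cfg (ζ l)
  let lab : (Fin Q.n → Fin L → τ.Lab) → ℝ := fun y => (∑ ε : Fin τ.n → Bool, (∏ j, sgn (ε j)) *
    ∏ l : Fin m, ∑ j, sgn (ε j) * τ.chi (y rest[l]) j.succ) / 2 ^ τ.n * τ.chi (y r) 0
  have hpt : ∀ ξ : Fin Q.n → Fin L → B.Z × τ.Lab,
      ∑ ρ : τ.Root N, 1 / (Fintype.card (τ.Root N) : ℝ) * (f (fun c => B.cfg fun a => (ξ (Q.base c) a).1)
        * colProd (fieldX B τ ρ) (rootZ B τ ρ) 0 Q.col ξ)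
      = φ (fun i a => (ξ i a).1) * lab fun i a => (ξ i a).2 := by
    intro ξ
    have hcp : ∀ ρ : τ.Root N, colProd (fieldX B τ ρ) (rootZ B τ ρ) 0 Q.col ξ =
        ((Q.col.map fun l => spin (B.cfg (fun a => (ξ l a).1) ρ.1)).prod) *
          ((∏ j, sgn (ρ.2 j)) * (∏ l : Fin m, ∑ j, sgn (ρ.2 j) * τ.chi (fun a => (ξ rest[l] a).2) j.succ))
          * τ.chi (fun a => (ξ r a).2) 0 := by
      intro ρ
      simp only [hcol, colProd, zero_mul, add_zero, div_one, List.map_cons, List.prod_cons,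
        ← Fin.prod_univ_fun_getElem rest]
      simp only [rootZ, fieldX, Kind.field, prod_mul_distrib]
      simp only [show ∀ s, sgn s = spin s from fun _ => rfl, Fin.getElem_fin]
      ring
    simp only [hcp, Fintype.sum_prod_type, φ, lab, overlap, mean, Fintype.card_prod, Fintype.card_fin,
      Fintype.card_fun, Fintype.card_bool, Nat.cast_mul, Nat.cast_pow, Nat.cast_ofNat,
      sum_div, mul_sum, sum_mul]
    rw [sum_comm]
    exact sum_congr rfl fun ε _ => sum_congr rfl fun i _ => by ring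
  have hlab : (∑ y ∈ Q.S.consistent, lab y) / (Q.S.consistent (Z := τ.Lab)).card =
      if Q.col.length = τ.n + 1 then kapT τ (joinMat τ.n Q.joins) else 0 := by
    have hl : Q.col.length = m + 1 := by simp [hcol, hm]
    rcases hmn.lt_or_eq with hlt | heq
    · rw [if_neg (by omega), sum_eq_zero (fun y _ => ?_), zero_div]
      simp only [lab]
      rw [signs_mean_zero hlt, zero_mul]
    · rw [if_pos (by omega)]
      let cl : Fin τ.n → Fin Q.n := fun l => rest[(Fin.cast heq.symm l : Fin m)]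
      have hre : ∀ y, lab y = ∑ e : Equiv.Perm (Fin τ.n),
          τ.chi (y r) 0 * ∏ l, τ.chi (y (cl l)) (e l).succ := fun y => by
        rw [← mul_sum, ← signs_mean_eq fun l j => τ.chi (y (cl l)) j.succ, mul_comm]
        simp only [lab]
        congr 2
        refine sum_congr rfl fun ε _ => ?_
        congr 1
        exact Fintype.prod_equiv (finCongr heq) _ _ fun l => rfl
      simp only [hre]
      rw [sum_comm, sum_div, kapT, ← Equiv.sum_comp (Equiv.inv (Equiv.Perm (Fin τ.n)))]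
      refine sum_congr rfl fun e _ => ?_
      set pp := Equiv.Perm.decomposeFin.symm ((0 : Fin (τ.n + 1)), e)
      set x : Fin (τ.n + 1) → Fin Q.n := fun a => Q.col[((pp a : Fin (τ.n + 1)) : ℕ)]'(by omega)
      have hx : ∀ a c, (joinMat τ.n Q.joins) (pp a) (pp c) = Q.S.J (x a) (x c) := fun a c => by
        have h1 : ((pp a : Fin (τ.n + 1)) : ℕ) < Q.col.length := by omega
        have h2 : ((pp c : Fin (τ.n + 1)) : ℕ) < Q.col.length := by omega
        simp [joinMat, Pos.joins, x, List.getD_eq_getElem?_getD, List.getElem?_eq_getElem h1,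
          List.getElem?_eq_getElem h2]
      simp only [hx]
      rw [← chi_avg τ Q.S x]
      congr 1
      refine sum_congr rfl fun y _ => ?_
      have hx0 : x 0 = r := by simp [x, pp, hcol]
      have hxs : ∀ j : Fin τ.n, x j.succ = cl (e j) := fun j => by
        simp [x, pp, hcol, cl, Equiv.Perm.decomposeFin_symm_apply_succ]
      rw [Fin.prod_univ_succ, hx0]
      congr 1
      simp only [hxs]
      exact Fintype.prod_equiv e.symm _ _ fun l => by simp
  have hsum : posV B G τ f 0 Q = ∑ o, B.w o * Q.S.E G (fun ξ : Fin L → B.Z × τ.Lab => B.H o fun a => (ξ a).1)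
      fun ξ => φ (fun i a => (ξ i a).1) * lab fun i a => (ξ i a).2 := by
    simp only [posV, Pos.val, zero_mul, add_zero, log_one]
    rw [Fintype.sum_prod_type]
    refine sum_congr rfl fun o _ => ?_
    simp only [← hpt, Shape.E, mul_sum, sum_div]
    rw [sum_comm]
    exact sum_congr rfl fun ξ _ => sum_congr rfl fun ρ _ => by ring
  rw [hsum]
  simp only [E_fst, hlab]
  split_ifs with h
  · rw [Sys.E, mul_sum]
    refine sum_congr rfl fun o _ => ?_
    show B.w o * (Q.S.E G (B.H o) φ * _) = _ * (B.w o * Q.S.E G (B.H o) φ)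
    ring
  · simp

/-- The expansion of the mean energy of the added term. -/
theorem addTerm_expansion (B : Sys L N) (G : Grid L) (τ : Kind L) {t : ℝ}
    (hun : |τ.u| * τ.n ≤ 1 / 2) (S : Shape L b) (r : Fin b) (f : (Fin b → Fin N → Bool) → ℝ)
    (hf : ∀ σ, |f σ| ≤ 1) :
    let g := Pos.place G τ.n (⟨b, S, id, [r]⟩ : Pos L b) fun Q => kapT τ (joinMat τ.n Q.joins) *
      B.E G Q.S fun _ ξ => f (fun c => B.spins ξ (Q.base c)) * overlap Q.col (B.spins ξ)
    |(B.addTerm τ t).E G S (fun o ξ => f ((B.addTerm τ t).spins ξ) *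
        τ.energy o.2 (fun a => (ξ r a).2) ((B.addTerm τ t).spins ξ r))
      - g * τ.u ^ τ.n / τ.n.factorial|
      ≤ (2 * ((b : ℝ) + (τ.n + 1))) ^ (τ.n + 1) * (2 * (2 * (τ.n : ℝ) + 1) ^ (τ.n + 1)) * |τ.u| ^ (τ.n + 1)
        + 8 * b * |t| ∧
    |g| ≤ (2 * ((b : ℝ) + (τ.n + 1))) ^ (τ.n + 1) * (2 * (2 * (τ.n : ℝ) + 1) ^ (τ.n + 1)) := by
  intro g
  classical
  set A : ℝ := 2 * (2 * (τ.n : ℝ) + 1) ^ (τ.n + 1)
  have hA : 0 ≤ A := by positivity
  set K : ℝ := (2 * ((b : ℝ) + (τ.n + 1))) ^ (τ.n + 1)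
  let P₀ : Pos L b := ⟨b, S, id, [r]⟩
  let J : ℕ → ℝ → ℝ := fun i v => P₀.place G i (posV B G τ f v)
  have hbound : ∀ i ≤ τ.n + 1, ∀ v : ℝ, |v| * τ.n ≤ 1 / 2 → |J i v| ≤ K * A := by
    intro i hi v hv
    have e : J i v = P₀.place G i fun Q => if Q.col.length ≤ τ.n + 2 then posV B G τ f v Q else 0 :=
      place_congr G i P₀ (List.nodup_singleton r) fun Q _ hQ => by
        rw [if_pos (by simp [P₀] at hQ; omega)]
    rw [e]
    refine (placeBoundStmt L b G i P₀ _ A hA fun Q => ?_).trans (mul_le_mul_of_nonneg_right ?_ hA)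
    · split_ifs with h
      · exact abs_posV_le B G τ hf hv Q h
      · simpa using hA
    · have h1 : (1 : ℝ) ≤ 2 * ((b : ℝ) + (τ.n + 1)) := by
        have : (0 : ℝ) ≤ b := Nat.cast_nonneg b
        have : (0 : ℝ) ≤ τ.n := Nat.cast_nonneg τ.n
        linarith
      have h2 : (i : ℝ) ≤ τ.n + 1 := by exact_mod_cast hi
      refine (pow_le_pow_left₀ (by positivity) ?_ i).trans (pow_le_pow_right₀ h1 hi)
      simp only [P₀]
      linarith
  have hder : ∀ i, ∀ v : ℝ, |v| * τ.n ≤ 1 / 2 → HasDerivAt (J i) (J (i + 1) v) v := by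
    intro i v hv
    refine (hasDerivAt_place G (Φ := fun x => posV B G τ f x) (Φ' := fun Q => Q.step G (posV B G τ f v))
      (fun Q hne hnd => hasDerivAt_posV B G τ f hv Q hne hnd) i P₀ (List.cons_ne_nil _ _)
      (List.nodup_singleton r)).congr_deriv ?_
    exact (Pos.place_succ G _ i P₀).symm
  have hzero : ∀ i ≤ τ.n, J i 0 = if i = τ.n then g else 0 := by
    intro i hi
    rw [show J i 0 = P₀.place G i fun Q => if i = τ.n then kapT τ (joinMat τ.n Q.joins) *
        B.E G Q.S (fun _ ξ => f (fun c => B.spins ξ (Q.base c)) * overlap Q.col (B.spins ξ)) else 0 from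
      place_congr G i P₀ (List.nodup_singleton r) fun Q _ hQ => by
        have hl : Q.col.length = i + 1 := by simp [P₀] at hQ; omega
        rw [posV_zero B G τ f Q (by omega) (by intro h; simp [h] at hl)]
        exact if_congr (by omega) rfl rfl]
    split_ifs with h
    · subst h; rfl
    · exact place_zero_fun G i P₀
  have hmem : ∀ v ∈ Set.uIcc 0 τ.u, |v| * (τ.n : ℝ) ≤ 1 / 2 := fun v hv => by
    have := Set.abs_sub_left_of_mem_uIcc hv
    simp only [sub_zero] at this
    exact (mul_le_mul_of_nonneg_right this (Nat.cast_nonneg _)).trans hun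
  have hg : |g| ≤ K * A := by
    have := hbound τ.n (Nat.le_succ _) 0 (by norm_num)
    rwa [hzero τ.n le_rfl, if_pos rfl] at this
  refine ⟨?_, hg⟩
  have htay := taylor_small (G := J) τ.n (u := τ.u) (M := K * A)
    (fun i _ v hv => hder i v (hmem v hv)) fun v hv => hbound _ le_rfl v (hmem v hv)
  rw [sum_eq_single τ.n (fun i hi hne => by
      rw [hzero i (by simp at hi; omega), if_neg hne]; simp) (by simp), hzero τ.n le_rfl, if_pos rfl] at htay
  have ht : |(B.addTerm τ t).E G S (fun o ξ => f ((B.addTerm τ t).spins ξ) *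
        τ.energy o.2 (fun a => (ξ r a).2) ((B.addTerm τ t).spins ξ r)) - J 0 τ.u| ≤ 8 * b * |t| := by
    have hJ : J 0 τ.u = ∑ o : B.Om × τ.Root N, B.w o.1 / Fintype.card (τ.Root N) *
        S.E G (fun ξ => B.H o.1 (fun a => (ξ a).1) + log (1 + τ.u * fieldX B τ o.2 ξ)) fun ξ =>
          f (fun c => B.cfg fun a => (ξ c a).1) *
            τ.energy o.2 (fun a => (ξ r a).2) (B.cfg fun a => (ξ r a).1) := by
      refine sum_congr rfl fun o _ => congrArg _ (congrArg _ (funext fun ξ => ?_))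
      simp [P₀, colProd, rootZ, fieldX, Kind.energy]
    rw [hJ]
    unfold Sys.E
    refine le_trans (le_of_eq (congrArg _ (sum_sub_distrib _ _).symm)) ?_
    refine (abs_sum_le_sum_abs _ _).trans ((sum_le_sum fun o _ => ?_).trans
      (le_of_eq (show ∑ o : B.Om × τ.Root N, B.w o.1 / Fintype.card (τ.Root N) * (8 * b * |t|) = 8 * b * |t| by
        rw [← sum_mul, sum_root_weight, one_mul])))
    have h0 : 0 ≤ B.w o.1 / Fintype.card (τ.Root N) := (B.addTerm τ 0).w_nonneg o
    show |B.w o.1 / (Fintype.card (τ.Root N) : ℝ) * _ - B.w o.1 / (Fintype.card (τ.Root N) : ℝ) * _| ≤ _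
    rw [← mul_sub, abs_mul]
    refine mul_le_mul (le_of_eq (abs_of_nonneg h0)) ((E_lip S G _ _ _ (A := 2) (δ := 2 * |t|)
      (fun ξ => ?_) fun ξ => ?_).trans (le_of_eq (by ring))) (abs_nonneg _) h0
    · rw [abs_mul]
      exact (mul_le_of_le_one_left (abs_nonneg _) (hf _)).trans (abs_energy_le hun _ _ _)
    · show |B.H o.1 _ + τ.term t o.2 _ _ - (_ + _)| ≤ _
      simp only [Kind.term, fieldX]
      rw [show ∀ x y z : ℝ, x + (y + z) - (x + y) = z from fun x y z => by ring, abs_mul, mul_comm 2]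
      exact mul_le_mul_of_nonneg_left (abs_energy_le hun _ _ _) (abs_nonneg _)
  calc _ ≤ _ + |J 0 τ.u - g * τ.u ^ τ.n / τ.n.factorial| := abs_sub_le _ (J 0 τ.u) _
    _ ≤ 8 * b * |t| + K * A * |τ.u| ^ (τ.n + 1) := add_le_add ht htay
    _ = _ := by ring

theorem abs_log_one_add_le {z : ℝ} (hz : |z| ≤ 1 / 2) : |log (1 + z)| ≤ 2 * |z| := by
  obtain ⟨h1, h2⟩ := abs_le.1 hz
  have hp : 0 < 1 + z := by linarith
  have hu := log_le_sub_one_of_pos hp
  have hl := one_sub_inv_le_log_of_pos hp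
  have hz' : 1 - (1 + z)⁻¹ = z / (1 + z) := by field_simp; ring
  have hb : -(2 * |z|) ≤ z / (1 + z) := by
    rw [le_div_iff₀ hp]
    nlinarith [neg_abs_le z, abs_nonneg z]
  rw [abs_le]
  constructor <;> linarith [le_abs_self z, abs_nonneg z]

/-- The added term moves an observable of the spins by little. -/
theorem addTerm_observable (B : Sys L N) (G : Grid L) (τ : Kind L) {t : ℝ}
    (hun : |τ.u| * τ.n ≤ 1 / 2) (S : Shape L b) (f : (Fin b → Fin N → Bool) → ℝ)
    (hf : ∀ σ, |f σ| ≤ 1) :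
    |(B.addTerm τ t).E G S (fun _ ξ => f ((B.addTerm τ t).spins ξ)) - B.E G S (fun _ ξ => f (B.spins ξ))|
      ≤ 4 * b * (|τ.u| * τ.n + |t|) := by
  have hF : B.E G S (fun _ ξ => f (B.spins ξ)) = ∑ o : B.Om × τ.Root N,
      B.w o.1 / Fintype.card (τ.Root N) * S.E G (fun ξ : Fin L → B.Z × τ.Lab => B.H o.1 fun a => (ξ a).1)
        fun ξ => f fun c => B.cfg fun a => (ξ c a).1 := by
    rw [Fintype.sum_prod_type]
    refine sum_congr rfl fun o _ => ?_
    simp only [sum_const, card_univ, nsmul_eq_mul]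
    rw [← mul_assoc, mul_div_cancel₀ _ (Nat.cast_ne_zero.2 Fintype.card_ne_zero)]
    congr 1
    have := E_fst (A := τ.Lab) S G (B.H o) (fun ζ => f fun c => B.cfg (ζ c)) fun _ => 1
    simp only [mul_one, sum_const, nsmul_eq_mul, mul_one] at this
    rw [this, div_self (Nat.cast_ne_zero.2 (consistent_pos S).ne'), mul_one]
    rfl
  rw [hF]
  unfold Sys.E
  refine le_trans (le_of_eq (congrArg _ (sum_sub_distrib _ _).symm)) ?_
  refine (abs_sum_le_sum_abs _ _).trans ((sum_le_sum fun o _ => ?_).trans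
    (le_of_eq (show ∑ o : B.Om × τ.Root N, B.w o.1 / Fintype.card (τ.Root N) *
        (4 * b * (|τ.u| * τ.n + |t|)) = 4 * b * (|τ.u| * τ.n + |t|) by
      rw [← sum_mul, sum_root_weight, one_mul])))
  have h0 : 0 ≤ B.w o.1 / Fintype.card (τ.Root N) := (B.addTerm τ 0).w_nonneg o
  show |B.w o.1 / (Fintype.card (τ.Root N) : ℝ) * _ - B.w o.1 / (Fintype.card (τ.Root N) : ℝ) * _| ≤ _
  rw [← mul_sub, abs_mul]
  refine mul_le_mul (le_of_eq (abs_of_nonneg h0)) ((E_lip S G _ _ _ (A := 1)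
    (δ := 2 * (|τ.u| * τ.n + |t|)) (fun ξ => hf _) fun ξ => ?_).trans (le_of_eq (by ring)))
    (abs_nonneg _) h0
  show |B.H o.1 _ + τ.term t o.2 _ _ - _| ≤ _
  rw [add_sub_cancel_left, Kind.term]
  set σ := B.cfg fun a => (ξ a).1
  set lab := fun a => (ξ a).2
  have hz : |τ.u * τ.field o.2 lab σ| ≤ |τ.u| * τ.n := by
    rw [abs_mul]
    exact mul_le_mul_of_nonneg_left (abs_field_le τ _ _ _) (abs_nonneg _)
  have h1 := abs_log_one_add_le (hz.trans hun)
  have h2 : |t * τ.energy o.2 lab σ| ≤ |t| * 2 := by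
    rw [abs_mul]
    exact mul_le_mul_of_nonneg_left (abs_energy_le hun _ _ _) (abs_nonneg _)
  calc _ ≤ |log (1 + τ.u * τ.field o.2 lab σ)| + |t * τ.energy o.2 lab σ| := abs_add_le _ _
    _ ≤ _ := by linarith

theorem termStmt : TermStmt := by
  intro n b
  let MA : ℕ → ℝ := fun b => (2 * ((b : ℝ) + (n + 1))) ^ (n + 1) * (2 * (2 * (n : ℝ) + 1) ^ (n + 1))
  let C₀ : ℝ := 1 + MA b + MA 1 + 8 * b + 8 + 4 * b * (MA 1 * n + MA 1 + 6)
  have hMA : ∀ b, 0 ≤ MA b := fun b => by positivity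
  have hC₀ : 1 ≤ C₀ := by
    have := hMA b; have := hMA 1; have := (Nat.cast_nonneg n : (0 : ℝ) ≤ n)
    have := (Nat.cast_nonneg b : (0 : ℝ) ≤ b)
    simp only [C₀]
    nlinarith [mul_nonneg (hMA 1) (Nat.cast_nonneg (α := ℝ) n)]
  refine ⟨n.factorial * C₀, by positivity, ?_⟩
  intro L G N _ B P τ s t p hn hu hun htp S r f hf
  subst hn
  simp only [Fin.cast_eq_self]
  set s' := Function.update s p (s p + 1)
  have hp : s' p = s p + 1 := Function.update_self ..
  have hq : ∀ q, q ≠ p → s' q = s q := fun q h => Function.update_of_ne h ..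
  set B' := B.perturb τ t s
  set Bp := B.perturb τ t s'
  set A' := B'.addTerm (τ p) (t p)
  -- the deviation of the energy controls the covariance
  have hsp : (0 : ℝ) < s' p := Nat.cast_pos.2 (by omega)
  have hterm : ∀ {m : ℕ} (S : Shape L m) (r : Fin m) (f : (Fin m → Fin N → Bool) → ℝ),
      Bp.E G S (fun o ξ => f (Bp.spins ξ) * B.kindEnergy τ t s' p o (ξ r)) =
        A'.E G S fun o ξ => f (A'.spins ξ) * (τ p).energy o.2 (fun a => (ξ r a).2) (A'.spins ξ r) := by
    intro m S r f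
    have hc : ∀ c : Fin (s' p), Bp.E G S (fun o ξ => f (Bp.spins ξ) *
        (τ p).energy (o.2 p c) (fun a => (ξ r a).2 p c) (B.cfg fun a => (ξ r a).1)) =
        A'.E G S fun o ξ => f (A'.spins ξ) * (τ p).energy o.2 (fun a => (ξ r a).2) (A'.spins ξ r) := by
      intro c
      have := B.perturb_eq_addTerm G τ t hp hq (Fin.cast hp c) S
        fun ρ labs σ => f σ * (τ p).energy ρ (labs r) (σ r)
      exact this
    simp only [Sys.kindEnergy, div_eq_mul_inv, sum_mul, mul_sum]
    rw [Sys.E_sum]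
    simp only [← mul_assoc, fun c : Fin (s' p) => show
      Bp.E G S (fun o ξ => f (Bp.spins ξ) * (τ p).energy (o.2 p c) (fun a => (ξ r a).2 p c)
        (B.cfg fun a => (ξ r a).1) * ((s' p : ℝ))⁻¹) = ((s' p : ℝ))⁻¹ * Bp.E G S fun o ξ =>
          f (Bp.spins ξ) * (τ p).energy (o.2 p c) (fun a => (ξ r a).2 p c) (B.cfg fun a => (ξ r a).1) by
      rw [← Sys.E_const_mul]; congr 1; funext o ξ; ring]
    simp only [hc, sum_const, card_univ, Fintype.card_fin, nsmul_eq_mul]
    rw [mul_inv_cancel_left₀ hsp.ne']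
  set Af := A'.E G S fun o ξ => f (A'.spins ξ) * (τ p).energy o.2 (fun a => (ξ r a).2) (A'.spins ξ r)
  set c := A'.E G (Shape.one L) fun o ξ =>
    (fun _ => (1 : ℝ)) (A'.spins ξ) * (τ p).energy o.2 (fun a => (ξ 0 a).2) (A'.spins ξ 0) with hc
  set F1 := A'.E G S fun _ ξ => f (A'.spins ξ)
  set F0 := B'.E G S fun _ ξ => f (B'.spins ξ)
  set dev := B.energyDev G τ t s' p
  have hc1 : c = Bp.E G (Shape.one L) fun o ξ => B.kindEnergy τ t s' p o (ξ 0) := by
    refine hc.trans ((hterm (Shape.one L) 0 fun _ => 1).symm.trans ?_)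
    simp only [one_mul]
  have hcov : |Af - c * F1| ≤ dev := by
    have hF : Bp.E G S (fun _ ξ => f (Bp.spins ξ)) = F1 :=
      B.perturb_eq_addTerm G τ t hp hq 0 S fun _ _ σ => f σ
    have e : Af - c * F1 =
        Bp.E G S fun o ξ => f (Bp.spins ξ) * (B.kindEnergy τ t s' p o (ξ r) - c) := by
      have h : (fun o ξ => f (Bp.spins ξ) * (B.kindEnergy τ t s' p o (ξ r) - c)) =
          fun o ξ => ∑ i : Bool, (if i then f (Bp.spins ξ) * B.kindEnergy τ t s' p o (ξ r)
            else -c * f (Bp.spins ξ)) := by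
        funext o ξ; rw [Fintype.sum_bool, if_pos rfl, if_neg Bool.false_ne_true]; ring
      rw [h, Sys.E_sum, Fintype.sum_bool]
      simp only [if_pos, if_neg Bool.false_ne_true]
      rw [hterm, Sys.E_const_mul, hF]
      ring
    rw [e]
    calc |_| ≤ Bp.E G S (fun o ξ => |B.kindEnergy τ t s' p o (ξ r) - c|) := by
          have hb : ∀ o ξ, |f (Bp.spins ξ) * (B.kindEnergy τ t s' p o (ξ r) - c)|
              ≤ |B.kindEnergy τ t s' p o (ξ r) - c| := fun o ξ => by
            rw [abs_mul]; exact mul_le_of_le_one_left (abs_nonneg _) (hf _)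
          rw [abs_le]
          constructor
          · rw [neg_le]
            rw [show ∀ x : ℝ, -x = -1 * x from fun x => by ring, ← Sys.E_const_mul]
            exact Bp.E_le G S fun o ξ => by linarith [(abs_le.1 (hb o ξ)).1]
          · exact Bp.E_le G S fun o ξ => (le_abs_self _).trans (hb o ξ)
      _ = dev := by
          rw [Bp.E_marginal_one G S r fun o η => |B.kindEnergy τ t s' p o η - c|, hc1]
          rfl
  obtain ⟨hAf, _⟩ := addTerm_expansion B' G (τ p) (t := t p) hun S r f hf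
  obtain ⟨hC, hg1⟩ := addTerm_expansion B' G (τ p) (t := t p) hun (Shape.one L) 0 (fun _ => 1)
    fun _ => abs_one.le
  have hdF : |F1 - F0| ≤ 4 * b * (|(τ p).u| * (τ p).n + |t p|) :=
    addTerm_observable B' G (τ p) hun S f hf
  have hF0 : |F0| ≤ 1 := B'.abs_E_le G S fun o ξ => hf _
  have hcb : |c| ≤ 2 := A'.abs_E_le G _ fun o ξ => by
    rw [one_mul]; exact abs_energy_le hun _ _ _
  rw [← hc] at hC
  set n := (τ p).n
  set g := Pos.place G n (⟨b, S, id, [r]⟩ : Pos L b) fun Q => kapT (τ p) (joinMat n Q.joins) *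
    B'.E G Q.S fun _ ξ => f (fun c => B'.spins ξ (Q.base c)) * overlap Q.col (B'.spins ξ) with hg
  set g1 := Pos.place G n (⟨1, Shape.one L, id, [0]⟩ : Pos L 1) fun Q => kapT (τ p) (joinMat n Q.joins) *
    B'.E G Q.S fun _ ξ => (fun _ => (1 : ℝ)) (fun c => B'.spins ξ (Q.base c)) * overlap Q.col (B'.spins ξ)
  have hI : B'.identDiff G n S r f (kapT (τ p)) = g - F0 * g1 := by
    simp only [Sys.identDiff, g, g1, F0, one_mul]
  show |B'.identDiff G n S r f (kapT (τ p))| ≤ _
  rw [hI]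
  -- the algebra
  set u := (τ p).u
  set k := (n.factorial : ℝ)
  have hk : 1 ≤ k := by simp only [k]; exact_mod_cast n.factorial_pos
  set α := |u| ^ n with hα
  have hα0 : 0 < α := pow_pos hu n
  have hβ : |u| ^ (n + 1) = α * |u| := pow_succ _ _
  rw [hβ] at hAf hC
  simp only [Nat.cast_one] at hC hg1
  have hg1v : |g1 * u ^ n / k| ≤ MA 1 * α := by
    rw [abs_div, abs_mul, abs_pow, abs_of_pos (show 0 < k by linarith), div_le_iff₀ (by linarith)]
    calc |g1| * |u| ^ n ≤ MA 1 * α := mul_le_mul_of_nonneg_right (by simpa [MA] using hg1) hα0.le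
      _ ≤ MA 1 * α * k := le_mul_of_one_le_right (mul_nonneg (hMA 1) hα0.le) hk
  have hX : |(g - F0 * g1) * u ^ n / k| ≤ dev + (C₀ - 1) * (α * |u| + |t p|) := by
    have e : (g - F0 * g1) * u ^ n / k = -(Af - g * u ^ n / k) + (Af - c * F1)
        + c * (F1 - F0) + F0 * (c - g1 * u ^ n / k) := by ring
    rw [e]
    have hmain : |c * (F1 - F0)| ≤ 4 * b * ((MA 1 * n + MA 1) * (α * |u|) + 6 * |t p|) := by
      have hcs : |c| ≤ MA 1 * α + (MA 1 * (α * |u|) + 8 * |t p|) := by
        calc |c| = |g1 * u ^ n / k + (c - g1 * u ^ n / k)| := by rw [add_sub_cancel]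
          _ ≤ _ := (abs_add_le _ _).trans (add_le_add hg1v (hC.trans (le_of_eq (by simp [MA]))))
      rw [abs_mul]
      refine (mul_le_mul_of_nonneg_left hdF (abs_nonneg _)).trans ?_
      have h1 : |c| * (|u| * n) ≤ (MA 1 * n + MA 1) * (α * |u|) + 4 * |t p| := by
        have h0 : 0 ≤ |u| * (n : ℝ) := by positivity
        refine (mul_le_mul_of_nonneg_right hcs h0).trans ?_
        have h3 : (MA 1 * (α * |u|) + 8 * |t p|) * (|u| * n) ≤
            (MA 1 * (α * |u|) + 8 * |t p|) * (1 / 2) :=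
          mul_le_mul_of_nonneg_left hun (by have := hMA 1; positivity)
        have h4 : 0 ≤ MA 1 * (α * |u|) := by have := hMA 1; positivity
        calc (MA 1 * α + (MA 1 * (α * |u|) + 8 * |t p|)) * (|u| * n)
            = MA 1 * n * (α * |u|) + (MA 1 * (α * |u|) + 8 * |t p|) * (|u| * n) := by ring
          _ ≤ _ := by linarith
      have h2 : |c| * |t p| ≤ 2 * |t p| := mul_le_mul_of_nonneg_right hcb (abs_nonneg _)
      calc |c| * (4 * b * (|u| * n + |t p|)) = 4 * b * (|c| * (|u| * n) + |c| * |t p|) := by ring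
        _ ≤ _ := mul_le_mul_of_nonneg_left (by linarith) (by positivity)
    have hlast : |F0 * (c - g1 * u ^ n / k)| ≤ MA 1 * (α * |u|) + 8 * |t p| := by
      rw [abs_mul]
      exact (mul_le_of_le_one_left (abs_nonneg _) hF0).trans (hC.trans (le_of_eq (by simp [MA])))
    calc _ ≤ |Af - g * u ^ n / k| + |Af - c * F1| + |c * (F1 - F0)| + |F0 * (c - g1 * u ^ n / k)| := by
          refine (abs_add_le _ _).trans (add_le_add ((abs_add_le _ _).trans (add_le_add ?_ le_rfl)) le_rfl)
          exact (abs_add_le _ _).trans (by rw [abs_neg])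
      _ ≤ (MA b * (α * |u|) + 8 * b * |t p|) + dev + 4 * b * ((MA 1 * n + MA 1) * (α * |u|) + 6 * |t p|)
          + (MA 1 * (α * |u|) + 8 * |t p|) := add_le_add (add_le_add (add_le_add hAf hcov) hmain) hlast
      _ ≤ _ := by
          have a0 : 0 ≤ α * |u| := by positivity
          have b0 := hMA b; have b1 := hMA 1
          have bb : (0 : ℝ) ≤ b := Nat.cast_nonneg b
          have nn : (0 : ℝ) ≤ n := Nat.cast_nonneg n
          have e1 : 0 ≤ (8 * (b : ℝ) + 8 + 24 * b) * (α * |u|) := by positivity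
          have e2 : 0 ≤ (MA b + MA 1 + 4 * b * (MA 1 * n + MA 1)) * |t p| := by positivity
          simp only [C₀]
          linarith
  have hdev : 0 ≤ dev := (abs_nonneg _).trans hcov
  rw [abs_div, abs_mul, abs_pow, ← hα, abs_of_pos (show 0 < k by linarith),
    div_le_iff₀ (by linarith), ← le_div_iff₀ hα0] at hX
  refine hX.trans ?_
  calc (dev + (C₀ - 1) * (α * |u| + |t p|)) * k / α
      = k * (dev / α + (C₀ - 1) * (|u| + |t p| / α)) := by field_simp
    _ ≤ k * (C₀ * (|u| + |t p| / α + dev / α)) := by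
        refine mul_le_mul_of_nonneg_left ?_ (by linarith)
        have h5 : 0 ≤ dev / α := div_nonneg hdev hα0.le
        have h6 : 0 ≤ |u| + |t p| / α := add_nonneg (abs_nonneg _) (div_nonneg (abs_nonneg _) hα0.le)
        nlinarith
    _ = k * C₀ * (|u| + |t p| / α + dev / α) := by ring

end Vale.Agent.P168
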